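import Claimed.Agent.R322.Sx.Reverse.VMom
import Claimed.Agent.R322.Sx.Moment.Flux
import Claimed.Agent.R322.Pack030

/-!
# R322 / Sx / Reverse / PayInt : the integral estimates of `reverse_pay`   (helper43)

`Rev.flux_le` : splitting of the flux into tail / low part / bad part with weighted AM-GM;
`Rev.avg_bad_le` : Young on the bad part; `Rev.nu_bad_le`, `Rev.volume_bad_le` : mass and volume of the bad part (maximal cubes);
`Rev.avg_ind_one_le`, `Rev.avg_ind_e_le` : Gaussian mass / tilt of a base set.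
-/

set_option autoImplicit false

namespace Claimed.Agent.R322.Sx

open MeasureTheory Set Metric
open scoped ENNReal NNReal InnerProductSpace

namespace Rev

variable {m n Q : ℕ} {κ Cg : ℝ} {P : PD m n Q}

/-- inside `B_2` the truncated measure is `τ`. -/
theorem tauT_apply (h : P.Ok κ Cg) {A : Set (E m)} (hA : MeasurableSet A)
    (hsub : A ⊆ ball (0 : E m) 2) : P.S.tauT Q P.χ A = P.S.tau Q A := by
  unfold Sys.tauT
  rw [withDensity_apply _ hA]
  have : ∀ y ∈ A, ENNReal.ofReal (P.χ y) = 1 := fun y hy => by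
    rw [h.root.cut.eq_one y (hsub hy)]; simp
  rw [setLIntegral_congr_fun hA this, setLIntegral_one]

/-- Lebesgue measure of the part of a cube where some subcube has density above `Λ`. -/
theorem volume_bad_le (g : Fin m → Fin 3) (ν : Measure (E m)) [IsFiniteMeasure ν] (Jc : Cube m)
    {Λ : ℝ} (hΛ : 0 < Λ) :
    volume (Jc.set g \ Jc.lowPart g ν Λ) ≤ ENNReal.ofReal Λ⁻¹ * ν (Jc.set g) := by
  have h1 : Jc.set g \ Jc.lowPart g ν Λ
      ⊆ ⋃ R ∈ {R : Cube m | R.set g ⊆ Jc.set g ∧ Λ < R.dens g ν}, R.set g := by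
    rw [pk_lowPart_eq]
    intro y hy
    by_contra hcon
    exact hy.2 ⟨hy.1, hcon⟩
  have h2 : (⋃ R ∈ {R : Cube m | R.set g ⊆ Jc.set g ∧ Λ < R.dens g ν}, R.set g) ⊆ Jc.set g :=
    iUnion₂_subset fun R hR => hR.1
  calc volume (Jc.set g \ Jc.lowPart g ν Λ)
      ≤ volume (⋃ R ∈ {R : Cube m | R.set g ⊆ Jc.set g ∧ Λ < R.dens g ν}, R.set g) :=
        measure_mono h1
    _ ≤ ENNReal.ofReal Λ⁻¹
          * ν (⋃ R ∈ {R : Cube m | R.set g ⊆ Jc.set g ∧ Λ < R.dens g ν}, R.set g) :=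
        Cube.measure_iUnion_le g _ volume ν _ fun R hR =>
          Cube.volume_le_of_le_dens g ν R hΛ hR.2.le
    _ ≤ _ := by gcongr

/-- mass over the bad part. -/
theorem nu_bad_le (h : P.Ok κ Cg) (g : Fin m → Fin 3) (Jc : Cube m)
    (hJ : Jc.set g ⊆ ball (0 : E m) 2) {Λ : ℝ} (hΛ : 0 < Λ) {H : Set (E m)}
    (hH : MeasurableSet H) (hsub : H ⊆ Jc.set g \ Jc.lowPart g (P.S.tauT Q P.χ) Λ) :
    P.S.nu H ≤ P.S.tauT Q P.χ (Jc.set g)
      + Q * (2 * (ENNReal.ofReal Λ⁻¹ * P.S.tauT Q P.χ (Jc.set g))) := by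
  have hV := h.root.hyp.valid
  have := cmpl_tauT_finite h.root
  have hHJ : H ⊆ Jc.set g := hsub.trans sdiff_subset
  have e1 : P.S.nu H ≤ P.S.absM Q H + (Q : ℝ≥0∞) * P.S.volS H := by
    have := hV.nu_le Q H
    simpa using this
  have e2 : P.S.absM Q H ≤ P.S.tauT Q P.χ (Jc.set g) := by
    calc P.S.absM Q H ≤ P.S.tau Q H := by
          unfold Sys.tau
          rw [Measure.add_apply, Measure.add_apply, add_assoc]
          exact le_add_right le_rfl
      _ = P.S.tauT Q P.χ H := (tauT_apply h hH (hHJ.trans hJ)).symm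
      _ ≤ _ := measure_mono hHJ
  have e3 : P.S.volS H ≤ 2 * (ENNReal.ofReal Λ⁻¹ * P.S.tauT Q P.χ (Jc.set g)) := by
    calc P.S.volS H ≤ 2 * volume H := hV.volS_le H
      _ ≤ 2 * volume (Jc.set g \ Jc.lowPart g (P.S.tauT Q P.χ) Λ) := by gcongr
      _ ≤ _ := by gcongr; exact volume_bad_le g _ Jc hΛ
  calc P.S.nu H ≤ P.S.absM Q H + (Q : ℝ≥0∞) * P.S.volS H := e1
    _ ≤ _ := by gcongr

theorem nu_apply (S : Sys m n) {A : Set (E m)} (hA : MeasurableSet A) :
    S.nu A = S.μ (Prod.fst ⁻¹' A) := by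
  unfold Sys.nu
  rw [Measure.map_apply measurable_fst hA]

/-- Gaussian mass of a base set. -/
theorem avg_ind_one_le (h : P.Ok κ Cg) (s : ℝ) {A : Set (E m)} (hA : MeasurableSet A)
    (hfin : P.S.nu A ≠ ∞) :
    P.S.avg P.χ s P.x (fun q => (Prod.fst ⁻¹' A : Set (E m × E n)).indicator (fun _ => (1 : ℝ)) q)
      ≤ (2 * Real.pi * s ^ 2) ^ (-(m : ℝ) / 2) * (P.S.nu A).toReal := by
  have hAm : MeasurableSet (Prod.fst ⁻¹' A : Set (E m × E n)) := measurable_fst hA
  rw [nu_apply _ hA] at hfin ⊢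
  have hi : Integrable ((Prod.fst ⁻¹' A : Set (E m × E n)).indicator fun _ => (1 : ℝ)) P.S.μ :=
    (integrable_indicator_iff hAm).2 (integrableOn_const hfin)
  unfold Sys.avg
  calc ∫ q, Sys.ker P.χ s P.x q.1
          * (Prod.fst ⁻¹' A : Set (E m × E n)).indicator (fun _ => (1 : ℝ)) q ∂P.S.μ
      ≤ ∫ q, (2 * Real.pi * s ^ 2) ^ (-(m : ℝ) / 2)
          * (Prod.fst ⁻¹' A : Set (E m × E n)).indicator (fun _ => (1 : ℝ)) q ∂P.S.μ := by
        refine integral_mono_of_nonneg (Filter.Eventually.of_forall fun q => ?_) (hi.const_mul _)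
          (Filter.Eventually.of_forall fun q => ?_)
        · exact mul_nonneg (P.ker_nonneg h s q.1) (indicator_nonneg (fun _ _ => zero_le_one) q)
        · exact mul_le_mul_of_nonneg_right (P.ker_le h s q.1)
            (indicator_nonneg (fun _ _ => zero_le_one) q)
    _ = _ := by
        rw [integral_const_mul, integral_indicator hAm, setIntegral_const, measureReal_def,
          smul_eq_mul, mul_one]

/-- Gaussian tilt of a base set on which `|u| ≤ r`. -/
theorem avg_ind_e_le (h : P.Ok κ Cg) (s : ℝ) {A : Set (E m)} (hA : MeasurableSet A)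
    (hsub : A ⊆ closedBall (0 : E m) 3) {r : ℝ} (hr : ∀ y ∈ A, ‖uu P.x s y‖ ≤ r) :
    P.S.avg P.χ s P.x (fun q => (Prod.fst ⁻¹' A : Set (E m × E n)).indicator
        (fun q => P.S.e q * ‖uu P.x s q.1‖ ^ 2) q)
      ≤ r ^ 2 * ((2 * Real.pi * s ^ 2) ^ (-(m : ℝ) / 2) * (P.S.Dm A).toReal) := by
  have hV := h.root.hyp.valid
  have hAm : MeasurableSet (Prod.fst ⁻¹' A : Set (E m × E n)) := measurable_fst hA
  have hc : 0 ≤ (2 * Real.pi * s ^ 2) ^ (-(m : ℝ) / 2) := by positivity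
  have hwm : Measurable (A.indicator fun _ => (1 : ℝ)) := measurable_const.indicator hA
  have hi : Integrable (fun q : E m × E n => A.indicator (fun _ => (1 : ℝ)) q.1 * P.S.e q) P.S.μ := by
    refine hV.integrable_of_baseCpt ((hwm.comp measurable_fst).mul hV.meas_e)
      ⟨closedBall 0 3, isCompact_closedBall _ _, cmpl_K_subset h.root, fun q hq => ?_⟩ m
      (Filter.Eventually.of_forall fun q => ?_)
    · show A.indicator (fun _ => (1 : ℝ)) q.1 * P.S.e q = 0
      rw [indicator_of_notMem (fun hh => hq (hsub hh)), zero_mul]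
    · rw [abs_mul, abs_of_nonneg (hV.e_nonneg q),
        abs_of_nonneg (indicator_nonneg (fun _ _ => zero_le_one) _)]
      calc A.indicator (fun _ => (1 : ℝ)) q.1 * P.S.e q ≤ 1 * m :=
            mul_le_mul (indicator_le_self' (fun _ _ => zero_le_one) _ |>.trans le_rfl) (hV.e_le q)
              (hV.e_nonneg q) zero_le_one
        _ = m := one_mul _
  have e1 : ∫ q, A.indicator (fun _ => (1 : ℝ)) q.1 * P.S.e q ∂P.S.μ = (P.S.Dm A).toReal := by
    have := hV.intD_eq hwm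
    unfold Sys.intD at this
    rw [this, integral_indicator hA, setIntegral_const, measureReal_def, smul_eq_mul, mul_one]
  rw [← e1]
  unfold Sys.avg
  calc ∫ q, Sys.ker P.χ s P.x q.1 * (Prod.fst ⁻¹' A : Set (E m × E n)).indicator
          (fun q => P.S.e q * ‖uu P.x s q.1‖ ^ 2) q ∂P.S.μ
      ≤ ∫ q, r ^ 2 * (2 * Real.pi * s ^ 2) ^ (-(m : ℝ) / 2)
          * (A.indicator (fun _ => (1 : ℝ)) q.1 * P.S.e q) ∂P.S.μ := by
        refine integral_mono_of_nonneg (Filter.Eventually.of_forall fun q => ?_) (hi.const_mul _)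
          (Filter.Eventually.of_forall fun q => ?_)
        · exact mul_nonneg (P.ker_nonneg h s q.1)
            (indicator_nonneg (fun q _ => mul_nonneg (hV.e_nonneg q) (sq_nonneg _)) q)
        · by_cases hq : q.1 ∈ A
          · have hq' : q ∈ (Prod.fst ⁻¹' A : Set (E m × E n)) := hq
            simp only [indicator_of_mem hq', indicator_of_mem hq, one_mul]
            have h1 : ‖uu P.x s q.1‖ ^ 2 ≤ r ^ 2 :=
              pow_le_pow_left₀ (norm_nonneg _) (hr _ hq) 2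
            have h2 := P.ker_le h s q.1
            have h3 := P.ker_nonneg h s q.1
            have h4 := hV.e_nonneg q
            calc Sys.ker P.χ s P.x q.1 * (P.S.e q * ‖uu P.x s q.1‖ ^ 2)
                ≤ (2 * Real.pi * s ^ 2) ^ (-(m : ℝ) / 2) * (P.S.e q * r ^ 2) :=
                  mul_le_mul h2 (mul_le_mul_of_nonneg_left h1 h4)
                    (mul_nonneg h4 (sq_nonneg _)) hc
              _ = _ := by ring
          · have hq' : q ∉ (Prod.fst ⁻¹' A : Set (E m × E n)) := hq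
            simp only [indicator_of_notMem hq', indicator_of_notMem hq, mul_zero, zero_mul, le_refl]
    _ = _ := by rw [integral_const_mul]; ring

theorem amgm {a b θ : ℝ} (hθ : 0 < θ) : a * b ≤ θ / 2 * a ^ 2 + 1 / (2 * θ) * b ^ 2 := by
  have h1 : 0 ≤ (θ * a - b) ^ 2 := sq_nonneg _
  have e : θ / 2 * a ^ 2 + 1 / (2 * θ) * b ^ 2 - a * b = (θ * a - b) ^ 2 / (2 * θ) := by
    field_simp
    ring
  have h2 : 0 ≤ (θ * a - b) ^ 2 / (2 * θ) := by positivity
  linarith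

section Flux

variable {Cv cv s : ℝ} {W : Finset (E n)} {Γ0 : E n → ℝ} {V : E n → E n}

theorem int_V2 (h : P.Ok κ Cg) (hs : 0 < s) (hV : WellVec W Cv cv s Γ0 V) :
    Integrable (fun q => Sys.ker P.χ s P.x q.1 * ‖V q.2‖ ^ 2) P.S.μ := by
  refine av_int h.root hs P.x
    (((hV.smooth.continuous.measurable.comp measurable_snd).norm).pow_const 2) (2 * s ^ 2) 0
    (fun q => ?_)
  rw [abs_of_nonneg (sq_nonneg _), pow_zero, mul_one]
  exact (hV.sq_le q.2).trans (gam_le_two Γ0 s q.2)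

theorem int_fe (h : P.Ok κ Cg) (hs : 0 < s) :
    Integrable (fun q => Sys.ker P.χ s P.x q.1 * (P.S.e q * ‖uu P.x s q.1‖ ^ 2)) P.S.μ := by
  have hS := h.root.hyp.valid
  refine av_int h.root hs P.x (hS.meas_e.mul ((av_measurable_uu P.x s).norm.pow_const 2)) m 1
    (fun q => ?_)
  have h1 := hS.e_nonneg q
  have h2 := hS.e_le q
  rw [abs_of_nonneg (mul_nonneg h1 (sq_nonneg _)), pow_one]
  exact mul_le_mul h2 (by linarith [sq_nonneg ‖uu P.x s q.1‖]) (sq_nonneg _) (Nat.cast_nonneg m)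

/-- pointwise bound of the flux density. -/
theorem flux_pt (h : P.Ok κ Cg) (q : E m × E n) (w : E n) (u : E m) {θ : ℝ} (hθ : 0 < θ) :
    ⟪w, P.S.Pvh q u⟫_ℝ ≤ θ / 2 * ‖w‖ ^ 2 + 1 / (2 * θ) * (P.S.e q * ‖u‖ ^ 2) := by
  have hS := h.root.hyp.valid
  have h1 : ⟪w, P.S.Pvh q u⟫_ℝ ≤ ‖w‖ * ‖P.S.Pvh q u‖ := real_inner_le_norm _ _
  have h2 : ‖P.S.Pvh q u‖ ≤ Real.sqrt (P.S.e q) * ‖u‖ :=
    ((P.S.Pvh q).le_opNorm u).trans (mul_le_mul_of_nonneg_right (hS.norm_Pvh_le q) (norm_nonneg _))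
  have h3 := amgm (a := ‖w‖) (b := Real.sqrt (P.S.e q) * ‖u‖) hθ
  have e : (Real.sqrt (P.S.e q) * ‖u‖) ^ 2 = P.S.e q * ‖u‖ ^ 2 := by
    rw [mul_pow, Real.sq_sqrt (hS.e_nonneg q)]
  rw [e] at h3
  calc ⟪w, P.S.Pvh q u⟫_ℝ ≤ ‖w‖ * ‖P.S.Pvh q u‖ := h1
    _ ≤ ‖w‖ * (Real.sqrt (P.S.e q) * ‖u‖) := mul_le_mul_of_nonneg_left h2 (norm_nonneg _)
    _ ≤ _ := h3

/-- **Splitting of the flux** into tail, low part and bad part. -/
theorem flux_le (h : P.Ok κ Cg) (hs : 0 < s) (hV : WellVec W Cv cv s Γ0 V) (r : ℝ)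
    {L : Set (E m)} (hL : MeasurableSet L) {θ1 θ2 : ℝ} (hθ1 : 0 < θ1) (hθ2 : 0 < θ2) :
    P.flux V s ≤ s * (θ1 / 2 * P.S.avg P.χ s P.x (fun q => ‖V q.2‖ ^ 2)
      + 1 / (2 * θ1) * (P.S.avg P.χ s P.x (fun q =>
            {q : E m × E n | r * s < ‖q.1 - P.x‖}.indicator
              (fun q => (1 + ‖uu P.x s q.1‖ ^ 2) ^ 1 * (P.S.e q + P.S.lam q)) q)
          + P.S.avg P.χ s P.x (fun q =>
            (Prod.fst ⁻¹' (closedBall P.x (r * s) ∩ L) : Set (E m × E n)).indicator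
              (fun q => P.S.e q * ‖uu P.x s q.1‖ ^ 2) q))
      + θ2 / 2 * P.S.avg P.χ s P.x (fun q =>
            (Prod.fst ⁻¹' (closedBall P.x (r * s) \ L) : Set (E m × E n)).indicator
              (fun q => ‖V q.2‖ ^ 2) q)
      + 1 / (2 * θ2) * P.S.avg P.χ s P.x
            (fun q => (1 + ‖uu P.x s q.1‖ ^ 2) ^ 1 * (P.S.e q + P.S.lam q))) := by
  have hS := h.root.hyp.valid
  have hcB : MeasurableSet (closedBall P.x (r * s)) := isClosed_closedBall.measurableSet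
  have i0 := flux_int1 h hs hV
  have i1 := int_V2 h hs hV
  have i2 := av_int_E h.root hs P.x 1
  have i3 := av_int_ind (measurableSet_tl (n := n) P.x (r * s)) i2
  have i4 := av_int_ind (measurable_fst (hcB.inter hL) :
    MeasurableSet (Prod.fst ⁻¹' (closedBall P.x (r * s) ∩ L) : Set (E m × E n))) (int_fe h hs)
  have i5 := av_int_ind (measurable_fst (hcB.diff hL) :
    MeasurableSet (Prod.fst ⁻¹' (closedBall P.x (r * s) \ L) : Set (E m × E n))) i1
  unfold PD.flux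
  apply mul_le_mul_of_nonneg_left _ hs.le
  rw [← av_const_mul, ← av_add i3 i4, ← av_const_mul, ← av_const_mul, ← av_const_mul,
    ← av_add (av_int_const_mul _ i1) (av_int_const_mul _ (av_int_add i3 i4)),
    ← av_add (av_int_add (av_int_const_mul _ i1) (av_int_const_mul _ (av_int_add i3 i4)))
      (av_int_const_mul _ i5),
    ← av_add (av_int_add (av_int_add (av_int_const_mul _ i1)
      (av_int_const_mul _ (av_int_add i3 i4))) (av_int_const_mul _ i5)) (av_int_const_mul _ i2)]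
  refine av_mono h.root s P.x i0 (av_int_add (av_int_add (av_int_add (av_int_const_mul _ i1)
      (av_int_const_mul _ (av_int_add i3 i4))) (av_int_const_mul _ i5)) (av_int_const_mul _ i2))
    (Filter.Eventually.of_forall fun q => ?_)
  -- the pointwise inequality
  have he := hS.e_nonneg q
  have hl := hS.lam_nonneg q
  obtain ⟨a2, ha2⟩ : ∃ a2 : ℝ, a2 = ‖V q.2‖ ^ 2 := ⟨_, rfl⟩
  obtain ⟨b2, hb2⟩ : ∃ b2 : ℝ, b2 = P.S.e q * ‖uu P.x s q.1‖ ^ 2 := ⟨_, rfl⟩
  obtain ⟨fE, hfE⟩ : ∃ fE : ℝ, fE = (1 + ‖uu P.x s q.1‖ ^ 2) ^ 1 * (P.S.e q + P.S.lam q) :=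
    ⟨_, rfl⟩
  have ha0 : 0 ≤ a2 := ha2 ▸ sq_nonneg _
  have hb0 : 0 ≤ b2 := hb2 ▸ mul_nonneg he (sq_nonneg _)
  have hbE : b2 ≤ fE := by
    rw [hb2, hfE, pow_one]
    nlinarith [sq_nonneg ‖uu P.x s q.1‖, mul_nonneg hl (sq_nonneg ‖uu P.x s q.1‖)]
  have p1 := flux_pt h q (V q.2) (uu P.x s q.1) hθ1
  have p2 := flux_pt h q (V q.2) (uu P.x s q.1) hθ2
  rw [← ha2, ← hb2] at p1 p2
  have c1 : 0 ≤ θ1 / 2 := by positivity
  have c2 : 0 ≤ 1 / (2 * θ1) := by positivity
  have c3 : 0 ≤ θ2 / 2 := by positivity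
  have c4 : 0 ≤ 1 / (2 * θ2) := by positivity
  have n1 := mul_nonneg c1 ha0
  have n4 := mul_nonneg c4 (hb0.trans hbE)
  by_cases hT : r * s < ‖q.1 - P.x‖
  · have m1 : q ∈ {q : E m × E n | r * s < ‖q.1 - P.x‖} := hT
    have hnB : q.1 ∉ closedBall P.x (r * s) := by
      rw [mem_closedBall, dist_eq_norm, not_le]; exact hT
    have m2 : q ∉ (Prod.fst ⁻¹' (closedBall P.x (r * s) ∩ L) : Set (E m × E n)) :=
      fun hh => hnB hh.1
    have m3 : q ∉ (Prod.fst ⁻¹' (closedBall P.x (r * s) \ L) : Set (E m × E n)) :=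
      fun hh => hnB hh.1
    simp only [indicator_of_mem m1, indicator_of_notMem m2, indicator_of_notMem m3]
    rw [← ha2, ← hfE]
    have := mul_le_mul_of_nonneg_left hbE c2
    linarith
  · have m1 : q ∉ {q : E m × E n | r * s < ‖q.1 - P.x‖} := hT
    have hB : q.1 ∈ closedBall P.x (r * s) := by
      rw [mem_closedBall, dist_eq_norm]; exact not_lt.1 hT
    by_cases hqL : q.1 ∈ L
    · have m2 : q ∈ (Prod.fst ⁻¹' (closedBall P.x (r * s) ∩ L) : Set (E m × E n)) := ⟨hB, hqL⟩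
      have m3 : q ∉ (Prod.fst ⁻¹' (closedBall P.x (r * s) \ L) : Set (E m × E n)) :=
        fun hh => hh.2 hqL
      simp only [indicator_of_notMem m1, indicator_of_mem m2, indicator_of_notMem m3]
      rw [← ha2, ← hfE, ← hb2]
      linarith
    · have m2 : q ∉ (Prod.fst ⁻¹' (closedBall P.x (r * s) ∩ L) : Set (E m × E n)) :=
        fun hh => hqL hh.2
      have m3 : q ∈ (Prod.fst ⁻¹' (closedBall P.x (r * s) \ L) : Set (E m × E n)) := ⟨hB, hqL⟩
      simp only [indicator_of_notMem m1, indicator_of_notMem m2, indicator_of_mem m3]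
      rw [← ha2, ← hfE]
      have := mul_le_mul_of_nonneg_left hbE c4
      linarith

theorem avg_V2_le_U (h : P.Ok κ Cg) (hs : 0 < s) (hc : Continuous Γ0)
    (hV : WellVec W Cv cv s Γ0 V) :
    P.S.avg P.χ s P.x (fun q => ‖V q.2‖ ^ 2) ≤ P.U Γ0 s :=
  av_mono h.root s P.x (int_V2 h hs hV) (flux_int2 h hs hc hV)
    (Filter.Eventually.of_forall fun q => hV.sq_le q.2)

theorem int_Vp (h : P.Ok κ Cg) (hs : 0 < s) (hV : WellVec W Cv cv s Γ0 V) {p : ℝ} (hp : 0 ≤ p) :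
    Integrable (fun q => Sys.ker P.χ s P.x q.1 * ‖V q.2‖ ^ p) P.S.μ := by
  refine av_int h.root hs P.x
    (((hV.smooth.continuous.measurable.comp measurable_snd).norm).pow_const p)
    (Real.sqrt (2 * s ^ 2) ^ p) 0 (fun q => ?_)
  rw [abs_of_nonneg (Real.rpow_nonneg (norm_nonneg _) _), pow_zero, mul_one]
  apply Real.rpow_le_rpow (norm_nonneg _) _ hp
  apply Real.le_sqrt_of_sq_le
  exact (hV.sq_le q.2).trans (gam_le_two Γ0 s q.2)

theorem int_one (h : P.Ok κ Cg) (hs : 0 < s) :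
    Integrable (fun q : E m × E n => Sys.ker P.χ s P.x q.1 * (1 : ℝ)) P.S.μ :=
  av_int h.root hs P.x measurable_const 1 0 (fun q => by simp)

/-- Young's inequality instead of Hölder on the bad part. -/
theorem avg_bad_le (h : P.Ok κ Cg) (hs : 0 < s) (hV : WellVec W Cv cv s Γ0 V) {H : Set (E m)}
    (hH : MeasurableSet H) {lam p : ℝ} (hlam : 0 < lam) (hp : 2 ≤ p) :
    P.S.avg P.χ s P.x (fun q => (Prod.fst ⁻¹' H : Set (E m × E n)).indicator
        (fun q => ‖V q.2‖ ^ 2) q)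
      ≤ lam ^ 2 * P.S.avg P.χ s P.x
          (fun q => (Prod.fst ⁻¹' H : Set (E m × E n)).indicator (fun _ => (1 : ℝ)) q)
        + lam ^ (2 - p) * P.S.avg P.χ s P.x (fun q => ‖V q.2‖ ^ p) := by
  have hHm : MeasurableSet (Prod.fst ⁻¹' H : Set (E m × E n)) := measurable_fst hH
  have i1 := av_int_ind hHm (int_one (n := n) h hs)
  have i2 := int_Vp h hs hV (p := p) (by linarith)
  rw [← av_const_mul, ← av_const_mul, ← av_add (av_int_const_mul _ i1) (av_int_const_mul _ i2)]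
  refine av_mono_nonneg h.root s P.x (fun q => indicator_nonneg (fun _ _ => sq_nonneg _) q)
    (av_int_add (av_int_const_mul _ i1) (av_int_const_mul _ i2)) (fun q => ?_)
  have hn : 0 ≤ lam ^ (2 - p) * ‖V q.2‖ ^ p :=
    mul_nonneg (Real.rpow_nonneg hlam.le _) (Real.rpow_nonneg (norm_nonneg _) _)
  by_cases hq : q ∈ (Prod.fst ⁻¹' H : Set (E m × E n))
  · simp only [indicator_of_mem hq, mul_one]
    have := Wt.sq_le_young (a := ‖V q.2‖) (norm_nonneg _) hlam hp
    rwa [Real.rpow_two, Real.rpow_two] at this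
  · simp only [indicator_of_notMem hq, mul_zero, zero_add]
    exact hn

end Flux

end Rev

end Claimed.Agent.R322.Sx
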