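import Claimed.Agent.R322.Sx.Reverse.PayNum
import Claimed.Agent.R322.Sx.Reverse.PayInt

/-!
# R322 / Sx / Reverse / PayCore : `reverse_pay` for one path datum   (helper43)

`Rev.low_le`, `Rev.bad_mass_le`, `Rev.cube_mass_le`, and the assembly `Rev.pay_core` (all constants and thresholds are hypotheses).
-/

set_option autoImplicit false

namespace Claimed.Agent.R322.Sx

open MeasureTheory Set Metric
open scoped ENNReal NNReal InnerProductSpace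

namespace Rev

variable {m n Q : ℕ} {κ Cg : ℝ} {P : PD m n Q}

theorem ball_two_subset : ball (0 : E m) 2 ⊆ closedBall (0 : E m) 3 :=
  ball_subset_closedBall.trans (closedBall_subset_closedBall (by norm_num))

theorem norm_uu_le {x y : E m} {s r : ℝ} (hs : 0 < s) (hy : y ∈ closedBall x (r * s)) :
    ‖uu x s y‖ ≤ r := by
  rw [mem_closedBall, dist_eq_norm] at hy
  unfold uu
  rw [norm_smul, Real.norm_eq_abs, abs_of_pos (inv_pos.2 hs), inv_mul_le_iff₀ hs]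
  linarith

theorem gauss_const_le {s : ℝ} (hs : 0 < s) :
    (2 * Real.pi * s ^ 2) ^ (-(m : ℝ) / 2) ≤ (s ^ m)⁻¹ := by
  have hsm : 0 < s ^ m := by positivity
  rw [← one_div, le_div_iff₀ hsm]
  exact Wt.gauss_const_mul_le (m := m) hs

/-- the low part inside the Gaussian body. -/
theorem low_le (hP : P.Ok κ Cg) {s r Λ : ℝ} (hs : 0 < s) (g : Fin m → Fin 3) (Jc : Cube m)
    (hcBJ : closedBall P.x (r * s) ⊆ Jc.set g) (hJ2 : Jc.set g ⊆ ball (0 : E m) 2) :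
    P.S.avg P.χ s P.x (fun q =>
      (Prod.fst ⁻¹' (closedBall P.x (r * s) ∩ Jc.lowPart g (P.S.tauT Q P.χ) Λ) :
        Set (E m × E n)).indicator (fun q => P.S.e q * ‖uu P.x s q.1‖ ^ 2) q)
      ≤ r ^ 2 * ((s ^ m)⁻¹ * (P.S.tauT Q P.χ (Jc.lowPart g (P.S.tauT Q P.χ) Λ)).toReal) := by
  have hfinν := cmpl_tauT_finite hP.root
  have hLm : MeasurableSet (Jc.lowPart g (P.S.tauT Q P.χ) Λ) := pk_measurableSet_lowPart g _ Jc Λ
  have hcBm : MeasurableSet (closedBall P.x (r * s)) := isClosed_closedBall.measurableSet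
  have hsubJ : closedBall P.x (r * s) ∩ Jc.lowPart g (P.S.tauT Q P.χ) Λ ⊆ Jc.set g :=
    inter_subset_left.trans hcBJ
  have h1 := avg_ind_e_le hP s (hcBm.inter hLm) (hsubJ.trans (hJ2.trans ball_two_subset)) (r := r)
    (fun y hy => norm_uu_le hs hy.1)
  refine h1.trans (mul_le_mul_of_nonneg_left ?_ (sq_nonneg _))
  have h2 : (P.S.Dm (closedBall P.x (r * s) ∩ Jc.lowPart g (P.S.tauT Q P.χ) Λ)).toReal
      ≤ (P.S.tauT Q P.χ (Jc.lowPart g (P.S.tauT Q P.χ) Λ)).toReal := by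
    apply ENNReal.toReal_mono (measure_ne_top _ _)
    calc P.S.Dm (closedBall P.x (r * s) ∩ Jc.lowPart g (P.S.tauT Q P.χ) Λ)
        ≤ P.S.tau Q (closedBall P.x (r * s) ∩ Jc.lowPart g (P.S.tauT Q P.χ) Λ) :=
          cmpl_Dm_le P.S Q _
      _ = P.S.tauT Q P.χ (closedBall P.x (r * s) ∩ Jc.lowPart g (P.S.tauT Q P.χ) Λ) :=
          (tauT_apply hP (hcBm.inter hLm) (hsubJ.trans hJ2)).symm
      _ ≤ _ := measure_mono inter_subset_right
  exact mul_le_mul (gauss_const_le hs) h2 ENNReal.toReal_nonneg (by positivity)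

/-- Gaussian mass of the bad part inside the Gaussian body. -/
theorem bad_mass_le (hP : P.Ok κ Cg) {s r Λ : ℝ} (hΛ0 : 0 < Λ) (g : Fin m → Fin 3)
    (Jc : Cube m) (hcBJ : closedBall P.x (r * s) ⊆ Jc.set g)
    (hJ2 : Jc.set g ⊆ ball (0 : E m) 2) :
    ∃ nuH : ℝ, P.S.avg P.χ s P.x (fun q =>
        (Prod.fst ⁻¹' (closedBall P.x (r * s) \ Jc.lowPart g (P.S.tauT Q P.χ) Λ) :
          Set (E m × E n)).indicator (fun _ => (1 : ℝ)) q)
        ≤ (2 * Real.pi * s ^ 2) ^ (-(m : ℝ) / 2) * nuH ∧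
      nuH ≤ (P.S.tauT Q P.χ (Jc.set g)).toReal
        + Q * (2 * (Λ⁻¹ * (P.S.tauT Q P.χ (Jc.set g)).toReal)) := by
  have hfinν := cmpl_tauT_finite hP.root
  have hLm : MeasurableSet (Jc.lowPart g (P.S.tauT Q P.χ) Λ) := pk_measurableSet_lowPart g _ Jc Λ
  have hcBm : MeasurableSet (closedBall P.x (r * s)) := isClosed_closedBall.measurableSet
  have hHm := hcBm.diff hLm
  have hnuE := nu_bad_le hP g Jc hJ2 hΛ0 hHm (sdiff_subset_sdiff_left hcBJ)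
  have h2 : P.S.tauT Q P.χ (Jc.set g) ≠ ∞ := measure_ne_top _ _
  have h3 : (Q : ℝ≥0∞) * (2 * (ENNReal.ofReal Λ⁻¹ * P.S.tauT Q P.χ (Jc.set g))) ≠ ∞ :=
    ENNReal.mul_ne_top (ENNReal.natCast_ne_top _)
      (ENNReal.mul_ne_top (by norm_num) (ENNReal.mul_ne_top ENNReal.ofReal_ne_top h2))
  have hrhs := ENNReal.add_ne_top.2 ⟨h2, h3⟩
  have hnufin := ne_top_of_le_ne_top hrhs hnuE
  refine ⟨_, avg_ind_one_le (n := n) hP s hHm hnufin, ?_⟩
  have h1 := ENNReal.toReal_mono hrhs hnuE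
  rw [ENNReal.toReal_add h2 h3, ENNReal.toReal_mul, ENNReal.toReal_mul, ENNReal.toReal_mul,
    ENNReal.toReal_natCast, ENNReal.toReal_ofReal (inv_pos.2 hΛ0).le] at h1
  simpa using h1

/-- the mass of the cube. -/
theorem cube_mass_le (g : Fin m → Fin 3) (ν : Measure (E m)) (Jc : Cube m) {D R s : ℝ}
    (hD : 0 ≤ D) (hside : Jc.side ≤ 12 * (R * s)) (hdens : Jc.dens g ν ≤ D) :
    (ν (Jc.set g)).toReal ≤ D * ((12 * R) ^ m * s ^ m) := by
  have h1 : (ν (Jc.set g)).toReal ≤ D * Jc.vol := by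
    unfold Cube.dens at hdens
    rwa [div_le_iff₀ Jc.vol_pos] at hdens
  have h2 : Jc.vol ≤ (12 * R) ^ m * s ^ m := by
    unfold Cube.vol
    rw [← mul_pow]
    apply pow_le_pow_left₀ Jc.side_pos.le
    calc Jc.side ≤ 12 * (R * s) := hside
      _ = _ := by ring
  exact h1.trans (mul_le_mul_of_nonneg_left h2 hD)

/-- `reverse_pay` for one path datum, with all constants and thresholds as hypotheses. -/
theorem pay_core (hP : P.Ok κ Cg) {s δ k R β Bε B6 μ0 Λ p Cp Ct c CV Cv cv : ℝ}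
    {W : Finset (E n)} {Γ0 : E n → ℝ} {V : E n → E n} (hs : 0 < s) (hδ0 : 0 < δ) (hk0 : 0 < k)
    (hR2 : 2 ≤ R) (hβ0 : 0 < β) (hBε : 0 ≤ Bε) (hB6 : 0 ≤ B6) (hμ0 : 0 < μ0) (hΛ0 : 0 < Λ)
    (hΛi : Λ⁻¹ = β / δ) (hδβ : δ ≤ β) (hp : 2 ≤ p) (hCp : 0 < Cp) (hCV : 0 < CV)
    (n1 : 64 * (Ct * Real.exp (-c * (R / 2) ^ 2)) ≤ k ^ 3)
    (n2 : 64 * Cp * (μ0 ^ 2 * ((12 * R) ^ m * Bε * ((2 * Q + 1) * β))
      + μ0 ^ (2 - p) * CV ^ p * k ^ (-p / 2)) ≤ k ^ 2)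
    (n3 : 4 * R ^ 2 * ((12 * R) ^ m * Bε) * B6 ≤ k ^ 3)
    (hc : Continuous Γ0) (hVV : WellVec W Cv cv s Γ0 V)
    (hU : P.U Γ0 s ≤ s ^ 2 * δ / k) (hfl : k * (s ^ 2 * δ) / 2 ≤ P.flux V s)
    (htT : P.S.avg P.χ s P.x (fun q => {q : E m × E n | R / 2 * s < ‖q.1 - P.x‖}.indicator
          (fun q => (1 + ‖uu P.x s q.1‖ ^ 2) ^ 1 * (P.S.e q + P.S.lam q)) q)
        ≤ Ct * Real.exp (-c * (R / 2) ^ 2) * δ)
    (hE : P.S.avg P.χ s P.x (fun q => (1 + ‖uu P.x s q.1‖ ^ 2) ^ 1 * (P.S.e q + P.S.lam q))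
        ≤ Cp * δ)
    (hMp : P.S.avg P.χ s P.x (fun q => ‖V q.2‖ ^ p) ≤ (CV * s * Real.sqrt (δ / k)) ^ p)
    (g : Fin m → Fin 3) (Jc : Cube m) (hball : ball P.x (R * s) ⊆ Jc.set g)
    (hJ2 : Jc.set g ⊆ ball (0 : E m) 2) (hside : Jc.side ≤ 12 * (R * s))
    (hdens : Jc.dens g (P.S.tauT Q P.χ) ≤ Bε * δ) :
    ENNReal.ofReal B6 * P.S.tauT Q P.χ (Jc.set g)
      ≤ P.S.tauT Q P.χ (Jc.lowPart g (P.S.tauT Q P.χ) Λ) := by
  have hfinν := cmpl_tauT_finite hP.root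
  have hR0 : 0 < R := by linarith
  have hsm : 0 < s ^ m := by positivity
  have hcG0 : 0 ≤ (2 * Real.pi * s ^ 2) ^ (-(m : ℝ) / 2) := by positivity
  have hLm : MeasurableSet (Jc.lowPart g (P.S.tauT Q P.χ) Λ) := pk_measurableSet_lowPart g _ Jc Λ
  have hcBm : MeasurableSet (closedBall P.x (R / 2 * s)) := isClosed_closedBall.measurableSet
  have hcBJ : closedBall P.x (R / 2 * s) ⊆ Jc.set g :=
    (closedBall_subset_ball (by nlinarith)).trans hball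
  have hNJle := cube_mass_le g (P.S.tauT Q P.χ) Jc (mul_nonneg hBε hδ0.le) hside hdens
  have hfu := flux_le hP hs hVV (R / 2) hLm (θ1 := k ^ 2 / (8 * s)) (θ2 := 8 * Cp / (k * s))
    (by positivity) (by positivity)
  have hA := (avg_V2_le_U hP hs hc hVV).trans hU
  have htL := low_le (n := n) (Λ := Λ) hP hs g Jc hcBJ hJ2
  obtain ⟨nuH, hh, hnuR⟩ := bad_mass_le (n := n) (s := s) hP hΛ0 g Jc hcBJ hJ2
  have hhbar := pay_arith3 (Q := Q) hcG0 (Wt.gauss_const_mul_le (m := m) hs) hsm hδ0 hβ0 hBε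
    (by positivity : (0 : ℝ) ≤ (12 * R) ^ m) hh hnuR hΛi hNJle hδβ
  have hlam : 0 < s * Real.sqrt δ * μ0 := mul_pos (mul_pos hs (Real.sqrt_pos.2 hδ0)) hμ0
  have haH0 := avg_bad_le hP hs hVV (hcBm.diff hLm) hlam hp
  have haH := pay_arith2 hs hδ0 hk0 hμ0 hCV haH0 hhbar hMp
  have key := pay_arith1 (R := R) hs hδ0 hk0 hCp hsm hfl hfu hA htT n1 htL haH n2 hE
  have fin := pay_arith4 hR0 hδ0 hsm hB6 key hNJle n3
  calc ENNReal.ofReal B6 * P.S.tauT Q P.χ (Jc.set g)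
      = ENNReal.ofReal B6 * ENNReal.ofReal (P.S.tauT Q P.χ (Jc.set g)).toReal := by
        rw [ENNReal.ofReal_toReal (measure_ne_top _ _)]
    _ = ENNReal.ofReal (B6 * (P.S.tauT Q P.χ (Jc.set g)).toReal) := (ENNReal.ofReal_mul hB6).symm
    _ ≤ ENNReal.ofReal (P.S.tauT Q P.χ (Jc.lowPart g (P.S.tauT Q P.χ) Λ)).toReal :=
        ENNReal.ofReal_le_ofReal fin
    _ = _ := ENNReal.ofReal_toReal (measure_ne_top _ _)

end Rev

end Claimed.Agent.R322.Sx
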