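import Claimed.Agent.R322.Sx.Reverse.VMom
import Claimed.Agent.R322.Sx.Reverse.PayCore

/-!
# R322 / Sx / Reverse / Pay : the controlled-density fraction (AE (6.10), (6.14)-(6.16))

PROVED (helper43) in `PayNum`, `PayInt`, `PayCore` (AM-GM and Young instead of Cauchy-Schwarz and Hölder).
PLAN with all exponents (checked by hand, helper104).  `k = B^{-ε0}`, `R = C1 √(log B)`, `ν = χ τ`, `G = ker χ s x`,
`u = uu x s y`, `Λ = B^{6m+8} δ`, `p` with `σ = 1/2 - 1/p = 1/(2m+2)` (`AdmP m p`), `ℓ = 12 R` (`side ≤ ℓ s`).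
`flux V s = s ∫ G ⟨V, P_vh u⟩ dμ`, `|⟨V, P_vh u⟩| ≤ |V| √e |u|` (`Valid.Pvh_sq_le`, `Valid.norm_B_le`).
Split `E m` into `T = (closedBall x (R s/2))ᶜ`, `H = Jc.set \ lowPart`, `L = lowPart` (`closedBall x (R s/2) ⊆ Jc.set`).
1. tail: Cauchy-Schwarz, `∫ G |V|² ≤ U ≤ s² δ/k` (`WellVec.sq_le`), `∫_T G e |u|² ≤ C e^{-c R²/4} δ`
   (`ctl_avg_le` with `g = 1_T (1+|u|²)`, `ctl_tail` `j = 1`):
   `s ∫_T … ≤ s² δ k^{-1/2} (C B^{-c C1²/4})^{1/2} ≤ k s² δ / 8` if `c C1²/8 ≥ 2` and `B` large.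
2. bad part: `|H| ≤ ν(Jc)/Λ ≤ B^{ε0 - (6m+8)} |Jc|` (`Cube.maxOf`, `volume_le_of_le_dens`, `measure_iUnion_le`);
   `μ(π⁻¹ H) = nu H ≤ |M|(H) + Q vol_S(H) ≤ ν(Jc) + 2 Q |H|` (`Valid.nu_le`, `a ≤ 2`, `χ = 1` on `ball 0 2`);
   `∫_{π⁻¹H} G dμ ≤ (2π s²)^{-m/2} nu H ≤ ℓ^m (B^{ε0} δ + 2Q B^{ε0-(6m+8)}) ≤ ℓ^m (2Q+1) B^{ε0-(6m+8)}` (`δ ≤ e^{-B}`).
   Cauchy-Schwarz, then Hölder with `p/2`:  `∫_H G |V|² ≤ (∫ G |V|^p)^{2/p} (∫_H G)^{2σ}`; `V_moment`; `ctl_poly` `j = 1`: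
   `s ∫_H … ≤ C s² δ k^{-1/2} (ℓ^m (2Q+1))^σ B^{(ε0-(6m+8)) σ} ≤ k s² δ/8` since `(6m+8-ε0) σ ≥ (6m+7)/(2m+2) > 3 > 3 ε0/2`.
3. rest: `k s² δ/4 ≤ s ∫_{L ∩ closedBall} G |V| √e |u| ≤ s √U (R² (2π s²)^{-m/2} ν(L))^{1/2}`, so
   `ν(L) ≥ k³ δ s^m /(16 R²)`; `ν(Jc) ≤ B^{ε0} δ ℓ^m s^m`; ratio `≥ B^{-4 ε0}/(16 R² ℓ^m) ≥ B^{-6 ε0}` for `B` large.
`1/T ≤ k ≤ 1` from `1 ≤ B ≤ T`, `ε0 ≤ 1`.  Integrability: `Valid.integrable_of_baseCpt` (`G` has base support in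
`closedBall 0 3 ⊆ Ω`; `V` bounded by `√2 s`; `e ≤ m`).  Elementary facts on `G`: `PD.ker_*` in `Witness.lean`.
-/

set_option autoImplicit false

namespace Claimed.Agent.R322.Sx

open MeasureTheory Set Metric
open scoped ENNReal NNReal InnerProductSpace

variable {m n Q : ℕ}

/-- AE (6.10): the controlled-density fraction of a cube carrying a definite normal flux. -/
theorem reverse_pay (m n Q : ℕ) (hm : 1 ≤ m) (hQ : 1 ≤ Q) (κ Cg : ℝ) (F : Fix m n Q Cg)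
    (K1 J Cw cp Cv ε0 : ℝ) (hK1 : 1 ≤ K1) (hJ : 0 ≤ J) (hCw : 1 ≤ Cw) (hCv : 1 ≤ Cv)
    (hε : 0 < ε0) (hε1 : ε0 ≤ 1) :
    ∃ C1min : ℝ, ∀ C1 : ℝ, C1min ≤ C1 → ∃ B0 T0 : ℝ, ∀ P : PD m n Q, P.Ok κ Cg → T0 ≤ P.T →
      ∀ s δ B, P.Ctl K1 J s δ → B0 ≤ B → B ≤ P.T → Real.exp (-2 * B) ≤ δ → δ ≤ Real.exp (-B) →
      ∀ (W : Finset (E n)) (Γ0 : E n → ℝ) (V : E n → E n) (cv : ℝ), W.Nonempty →
      WellFn W Cw cp Γ0 → WellVec W Cv cv s Γ0 V → B ^ (-ε0) * P.U Γ0 s ≤ s ^ 2 * δ →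
      B ^ (-ε0) * (s ^ 2 * δ) / 2 ≤ P.flux V s →
      ∀ (g : Fin m → Fin 3) (Jc : Cube m),
      ball P.x (C1 * Real.sqrt (Real.log B) * s) ⊆ Jc.set g → Jc.set g ⊆ ball (0 : E m) 2 →
      Jc.side ≤ 12 * (C1 * Real.sqrt (Real.log B) * s) →
      Jc.dens g (P.S.tauT Q P.χ) ≤ B ^ ε0 * δ →
      ENNReal.ofReal (B ^ (-6 * ε0)) * P.S.tauT Q P.χ (Jc.set g)
        ≤ P.S.tauT Q P.χ (Jc.lowPart g (P.S.tauT Q P.χ) (B ^ (6 * (m : ℝ) + 8) * δ)) := by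
  have hp := Wt.admP_p0 hm
  obtain ⟨Cp, Tp, hCp, hpoly⟩ := ctl_avgE m n Q hm hQ κ Cg K1 J hK1 hJ 1
  obtain ⟨Ct, c, Tt, hCt, hc, htail⟩ := ctl_avgE_tail m n Q hm hQ κ Cg K1 J hK1 hJ 1
  obtain ⟨CV, TV, hCV, hVm⟩ :=
    V_moment m n Q hm hQ κ Cg F K1 J Cw cp Cv (Wt.p0 m) hK1 hJ hCw hCv hp
  refine ⟨max 1 (4 / Real.sqrt c), fun C1 hC1 => ?_⟩
  have hC1pos : 0 < C1 := lt_of_lt_of_le one_pos ((le_max_left _ _).trans hC1)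
  have hcC : 16 ≤ c * C1 ^ 2 := by
    have h1 : 4 / Real.sqrt c ≤ C1 := (le_max_right _ _).trans hC1
    have hsc : 0 < Real.sqrt c := Real.sqrt_pos.2 hc
    rw [div_le_iff₀ hsc] at h1
    have h2 : (4 : ℝ) ^ 2 ≤ (C1 * Real.sqrt c) ^ 2 := pow_le_pow_left₀ (by norm_num) h1 2
    rw [mul_pow, Real.sq_sqrt hc.le] at h2
    linarith
  obtain ⟨B0, hnum⟩ := Rev.pay_num m Q hm ε0 c Ct Cp CV C1 hε hε1 hCt hCp hCV hC1pos hcC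
  refine ⟨B0, max Tp (max Tt TV), fun P hP hT s δ B hctl hB hBT hδ1 hδ2 W Γ0 V cv hW hwf hVV hmom
    hfl g Jc hball hJ2 hside hdens => ?_⟩
  have hTp : Tp ≤ P.T := (le_max_left _ _).trans hT
  have hTt : Tt ≤ P.T := ((le_max_left _ _).trans (le_max_right _ _)).trans hT
  have hTV : TV ≤ P.T := ((le_max_right _ _).trans (le_max_right _ _)).trans hT
  obtain ⟨hB2, hR2, n1, n2, n3, n4⟩ := hnum B hB
  have hs : 0 < s := hctl.v_pos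
  have hδ0 : 0 < δ := lt_of_lt_of_le (Real.exp_pos _) hδ1
  have hB0 : 0 < B := by linarith
  have hk0 : 0 < B ^ (-ε0) := Real.rpow_pos_of_pos hB0 _
  have hk1 : B ^ (-ε0) ≤ 1 := Real.rpow_le_one_of_one_le_of_nonpos (by linarith) (by linarith)
  have hkT : 1 / P.T ≤ B ^ (-ε0) := by
    have e1 : B ^ (-(1 : ℝ)) ≤ B ^ (-ε0) :=
      Real.rpow_le_rpow_of_exponent_le (by linarith) (by linarith)
    rw [Real.rpow_neg_one] at e1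
    have e2 : 1 / P.T ≤ B⁻¹ := by
      rw [one_div]
      exact inv_anti₀ hB0 hBT
    exact e2.trans e1
  have hΛi : (B ^ (6 * (m : ℝ) + 8) * δ)⁻¹ = B ^ (-(6 * (m : ℝ) + 8)) / δ := by
    rw [Real.rpow_neg hB0.le, mul_inv]; rfl
  have hU : P.U Γ0 s ≤ s ^ 2 * δ / B ^ (-ε0) := by
    rw [le_div_iff₀ hk0]; linarith
  exact Rev.pay_core hP hs hδ0 hk0 hR2 (Real.rpow_pos_of_pos hB0 _) (Real.rpow_nonneg hB0.le ε0)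
    (Real.rpow_nonneg hB0.le (-6 * ε0)) (by positivity : (0 : ℝ) < B ^ (3 * m))
    (mul_pos (Real.rpow_pos_of_pos hB0 _) hδ0) hΛi (hδ2.trans n4) hp.1.le hCp hCV n1 n2 n3
    hwf.smooth.continuous hVV hU hfl (htail P hP hTt s δ hctl _ (by linarith))
    (hpoly P hP hTp s δ hctl) (hVm P hP hTV s δ hctl W Γ0 V cv hW hwf hVV _ hkT hk1 hU)
    g Jc hball hJ2 hside hdens

end Claimed.Agent.R322.Sx
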