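import Claimed.Agent.R322.Sx.Witness

/-!
# R322 / Sx / Reverse / Cube : the cube of a witness scale (AE (6.9))

Plan (checked by hand, helper104).  `r = C1 √(log B) s`, `R = C1 √(log B)`.
* `Ctl.room`, `B ≤ T` : `12 √m r` is tiny; `exists_cube` gives `g`, `Jc`; `Jc.set g ⊆ ball x (√m side + ε) ⊆ ball 0 2`
  (`Cube.norm_sub_le` is in `Chain.lean`; restate it here if needed).
* lower density: `D_s = ∫ ker dD ≥ B^{-ε0} δ`; `ctl_tail` (`j = 0`, radius `R/2`) gives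
  `∫_{closedBall x (R s/2)} ker dD ≥ B^{-ε0} δ / 2` as soon as `c C1²/4 ≥ 2`; `ker ≤ χ (2π s²)^{-m/2}`, so
  `ν(Jc) ≥ (2π)^{m/2} s^m B^{-ε0} δ / 2`; `side ≤ 12 R s`; powers of `log B` are absorbed by `B^{ε0}`.
* upper density: `Jc.set g ⊆ ball x (t s)`, `t = 12 √m R + 1`, `ctl_ball`; `side ≥ r` because `ball x r ⊆ Jc.set g`.
-/

set_option autoImplicit false

namespace Claimed.Agent.R322.Sx

open MeasureTheory Set Metric
open scoped ENNReal NNReal InnerProductSpace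

variable {m n Q : ℕ}

/-- mass of the truncated measure as an integral of the cutoff. -/
theorem rev_tauT_toReal {S : Sys m n} {κ Cg T : ℝ} {χ : E m → ℝ} (hR : Root S Q κ Cg T χ)
    {A : Set (E m)} (hA : MeasurableSet A) :
    (S.tauT Q χ A).toReal = ∫ y in A, χ y ∂(S.tau Q) := by
  unfold Sys.tauT
  rw [withDensity_apply _ hA, integral_eq_lintegral_of_nonneg_ae
    (Filter.Eventually.of_forall fun y => hR.cut.nonneg y)
    (cmpl_chi_continuous hR).aestronglyMeasurable]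

theorem rev_tauT_le {S : Sys m n} {κ Cg T : ℝ} {χ : E m → ℝ} (hR : Root S Q κ Cg T χ)
    {A : Set (E m)} (hA : MeasurableSet A) : S.tauT Q χ A ≤ S.tau Q A := by
  unfold Sys.tauT
  rw [withDensity_apply _ hA]
  calc ∫⁻ y in A, ENNReal.ofReal (χ y) ∂(S.tau Q) ≤ ∫⁻ _y in A, 1 ∂(S.tau Q) :=
        lintegral_mono fun y => ENNReal.ofReal_le_one.2 (hR.cut.le_one y)
    _ = S.tau Q A := by rw [lintegral_one, Measure.restrict_apply_univ]

theorem PD.ker_integrable {κ Cg : ℝ} (P : PD m n Q) (h : P.Ok κ Cg) (s : ℝ) :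
    Integrable (Sys.ker P.χ s P.x) (P.S.tau Q) :=
  cmpl_integrable_chi_mul h.root
    ((cmpl_continuous_gauss m s).comp (continuous_id.sub continuous_const)).measurable
    ((2 * Real.pi * s ^ 2) ^ (-(m : ℝ) / 2))
    (fun y => by
      show |gauss m s (y - P.x)| ≤ _
      rw [abs_of_nonneg (cmpl_gauss_nonneg m s _)]; exact cmpl_gauss_le m s _)

/-- `D_s ≤ τ_s`. -/
theorem PD.Dv_le_tau {κ Cg : ℝ} (P : PD m n Q) (h : P.Ok κ Cg) (s : ℝ) : P.Dv s ≤ P.tau s := by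
  have h1 : P.Dv s = ∫ y, Sys.ker P.χ s P.x y ∂P.S.Dm :=
    h.root.hyp.valid.intD_eq (P.ker_continuous h s).measurable
  rw [h1]
  exact integral_mono_measure (cmpl_Dm_le P.S Q)
    (Filter.Eventually.of_forall fun y => P.ker_nonneg h s y) (P.ker_integrable h s)

/-- a cube containing a ball of radius `r` has side at least `r`. -/
theorem Cube.le_side_of_ball_subset (hm : 1 ≤ m) (g : Fin m → Fin 3) (c : Cube m) {x : E m}
    {r : ℝ} (hr : 0 < r) (h : ball x r ⊆ c.set g) : r ≤ c.side := by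
  obtain ⟨i0⟩ : Nonempty (Fin m) := ⟨⟨0, hm⟩⟩
  have h1 : x + (r / 2) • EuclideanSpace.single i0 (1 : ℝ) ∈ ball x r := by
    rw [mem_ball, dist_eq_norm, add_sub_cancel_left, norm_smul, PiLp.norm_single]
    simp only [norm_one, mul_one, Real.norm_eq_abs]
    rw [abs_of_pos (by positivity)]
    linarith
  have h2 : x - (r / 2) • EuclideanSpace.single i0 (1 : ℝ) ∈ ball x r := by
    rw [mem_ball, dist_eq_norm, sub_sub_cancel_left, norm_neg, norm_smul,
      PiLp.norm_single]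
    simp only [norm_one, mul_one, Real.norm_eq_abs]
    rw [abs_of_pos (by positivity)]
    linarith
  have a1 := (h h1 i0).2
  have a2 := (h h2 i0).1
  simp at a1 a2
  linarith

/-- mass of `τ` near the centre from below: `τ_s ≤ G_max ν(closedBall) + tail`. -/
theorem PD.tau_le_split {κ Cg : ℝ} (P : PD m n Q) (h : P.Ok κ Cg) (s r : ℝ) :
    P.tau s ≤ (2 * Real.pi * s ^ 2) ^ (-(m : ℝ) / 2) * (P.S.tauT Q P.χ (closedBall P.x r)).toReal
      + ∫ y in (closedBall P.x r)ᶜ, Sys.ker P.χ s P.x y ∂(P.S.tau Q) := by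
  have hmeas : MeasurableSet (closedBall P.x r) := isClosed_closedBall.measurableSet
  have h1 : P.tau s = (∫ y in closedBall P.x r, Sys.ker P.χ s P.x y ∂(P.S.tau Q))
      + ∫ y in (closedBall P.x r)ᶜ, Sys.ker P.χ s P.x y ∂(P.S.tau Q) :=
    (integral_add_compl hmeas (P.ker_integrable h s)).symm
  rw [h1, rev_tauT_toReal h.root hmeas, ← integral_const_mul]
  apply add_le_add_left
  apply setIntegral_mono (P.ker_integrable h s).integrableOn
  · have := cmpl_integrable_chi_mul h.root (f := fun _ => (2 * Real.pi * s ^ 2) ^ (-(m : ℝ) / 2))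
      measurable_const |(2 * Real.pi * s ^ 2) ^ (-(m : ℝ) / 2)| (fun _ => le_rfl)
    refine (this.congr (Filter.Eventually.of_forall fun y => ?_)).integrableOn
    simp only
    ring
  · intro y
    show P.χ y * gauss m s (y - P.x) ≤ _
    rw [mul_comm]
    exact mul_le_mul_of_nonneg_right (cmpl_gauss_le m s _) (h.root.cut.nonneg y)

/-- diameter of a cube. -/
theorem Cube.norm_sub_le {m : ℕ} (g : Fin m → Fin 3) (c : Cube m) {x y : E m} (hx : x ∈ c.set g)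
    (hy : y ∈ c.set g) : ‖y - x‖ ≤ Real.sqrt m * c.side := by
  have hs := c.side_pos
  rw [EuclideanSpace.norm_eq]
  have h1 : ∑ i : Fin m, ‖(y - x) i‖ ^ 2 ≤ m * c.side ^ 2 := by
    calc ∑ i : Fin m, ‖(y - x) i‖ ^ 2 ≤ ∑ _i : Fin m, c.side ^ 2 := by
          apply Finset.sum_le_sum
          intro i _
          have a1 := hx i
          have a2 := hy i
          have a3 : (y - x) i = y i - x i := rfl
          rw [a3, Real.norm_eq_abs, sq_abs]
          have a4 : |y i - x i| ≤ c.side := by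
            rw [abs_le]
            constructor <;> linarith [a1.1, a1.2, a2.1, a2.2]
          calc (y i - x i) ^ 2 = |y i - x i| ^ 2 := (sq_abs _).symm
            _ ≤ c.side ^ 2 := by gcongr
      _ = m * c.side ^ 2 := by simp
  calc Real.sqrt (∑ i : Fin m, ‖(y - x) i‖ ^ 2) ≤ Real.sqrt (m * c.side ^ 2) := Real.sqrt_le_sqrt h1
    _ = Real.sqrt m * c.side := by
        rw [Real.sqrt_mul (Nat.cast_nonneg m), Real.sqrt_sq hs.le]

/-- powers of `log B` are absorbed by `B^ε`. -/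
theorem rev_log_num (K a ε : ℝ) (hε : 0 < ε) :
    ∀ᶠ B : ℝ in Filter.atTop, K * Real.log B ^ a ≤ B ^ ε := by
  have h1 := (isLittleO_log_rpow_rpow_atTop a hε).bound
    (show (0 : ℝ) < 1 / (|K| + 1) by positivity)
  filter_upwards [h1, Filter.eventually_gt_atTop (0 : ℝ)] with B hB hB0
  have hp : 0 < B ^ ε := Real.rpow_pos_of_pos hB0 _
  rw [Real.norm_eq_abs, Real.norm_eq_abs, abs_of_pos hp] at hB
  calc K * Real.log B ^ a ≤ |K| * |Real.log B ^ a| := by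
        rw [← abs_mul]; exact le_abs_self _
    _ ≤ |K| * (1 / (|K| + 1) * B ^ ε) := mul_le_mul_of_nonneg_left hB (abs_nonneg _)
    _ = |K| / (|K| + 1) * B ^ ε := by ring
    _ ≤ 1 * B ^ ε := by
        apply mul_le_mul_of_nonneg_right _ hp.le
        rw [div_le_one (by positivity)]
        linarith
    _ = B ^ ε := one_mul _

/-- the maximum of the Gaussian: `(2π s²)^{-m/2} ≤ s^{-m}`. -/
theorem rev_gmax_le (m : ℕ) {s : ℝ} (hs : 0 < s) :
    (2 * Real.pi * s ^ 2) ^ (-(m : ℝ) / 2) ≤ (s ^ m)⁻¹ := by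
  have h1 : s ^ 2 ≤ 2 * Real.pi * s ^ 2 := by
    have := Real.pi_gt_three
    nlinarith [sq_nonneg s]
  have h2 : (2 * Real.pi * s ^ 2) ^ (-(m : ℝ) / 2) ≤ (s ^ 2) ^ (-(m : ℝ) / 2) :=
    Real.rpow_le_rpow_of_nonpos (by positivity) h1
      (by have : (0 : ℝ) ≤ m := Nat.cast_nonneg m; linarith)
  refine h2.trans (le_of_eq ?_)
  rw [← Real.rpow_natCast s 2, ← Real.rpow_mul hs.le, ← Real.rpow_natCast s m,
    ← Real.rpow_neg hs.le]
  congr 1
  push_cast
  ring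

/-- numerics of the scales in `reverse_cube`. -/
theorem rev_cube_scale {sm C1 lg B T R t : ℝ} (hsm1 : 1 ≤ sm) (hC12 : 2 ≤ C1) (hlg1 : 1 ≤ lg)
    (hlgB : lg ≤ B) (hBT : B ≤ T) (hT4 : 4 ≤ T) (hTC : 12 * sm * C1 + 1 ≤ T) (hR : R = C1 * lg)
    (ht : t = 12 * sm * R + 1) :
    2 ≤ R ∧ 1 ≤ t ∧ t ≤ (12 * sm + 1) * R ∧ t ≤ T ^ 4 ∧ R ≤ t := by
  have hR2 : 2 ≤ R := by
    rw [hR]
    calc (2 : ℝ) = 2 * 1 := by norm_num
      _ ≤ C1 * lg := mul_le_mul hC12 hlg1 (by norm_num) (by linarith)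
  have hsR : 0 ≤ 12 * sm * R := by positivity
  have e0 : (12 * sm + 1) * R = 12 * sm * R + R := by ring
  have e1 : R ≤ C1 * T := by
    rw [hR]; exact mul_le_mul_of_nonneg_left (hlgB.trans hBT) (by linarith)
  have e2 : 12 * sm * R ≤ 12 * sm * (C1 * T) := mul_le_mul_of_nonneg_left e1 (by positivity)
  have e3 : (12 * sm * C1 + 1) * T ≤ T * T := mul_le_mul_of_nonneg_right hTC (by linarith)
  have e4 : (12 * sm * C1 + 1) * T = 12 * sm * (C1 * T) + T := by ring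
  have e5 : T * T ≤ T ^ 4 := by
    have a1 : (1 : ℝ) ≤ T * T := by nlinarith
    have a2 : T ^ 4 = (T * T) * (T * T) := by ring
    rw [a2]
    nlinarith
  have e6 : R ≤ 12 * sm * R := by
    have : 1 * R ≤ 12 * sm * R := mul_le_mul_of_nonneg_right (by linarith) (by linarith)
    linarith
  refine ⟨hR2, by linarith, by linarith, by linarith, by linarith⟩

/-- lower density of a cube which contains the Gaussian body. -/
theorem rev_cube_lower {κ Cg : ℝ} (P : PD m n Q) (hP : P.Ok κ Cg) {s δ B ε0 R : ℝ}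
    (g : Fin m → Fin 3) (Jc : Cube m) (hs0 : 0 < s) (hδ0 : 0 < δ) (hB0 : 0 < B) (hR0 : 0 < R)
    (hsub : closedBall P.x (R / 2 * s) ⊆ Jc.set g) (hside : Jc.side ≤ 12 * (R * s))
    (htail : ∫ y in (closedBall P.x (R / 2 * s))ᶜ, Sys.ker P.χ s P.x y ∂(P.S.tau Q)
      ≤ B ^ (-ε0) / 2 * δ)
    (hDv : B ^ (-ε0) * δ ≤ P.Dv s) (hnum : 2 * (12 * R) ^ m ≤ B ^ ε0) :
    B ^ (-2 * ε0) * δ ≤ Jc.dens g (P.S.tauT Q P.χ) := by
  have hfin := cmpl_tauT_finite hP.root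
  have hsm' : 0 < s ^ m := by positivity
  have hvol : 0 < Jc.vol := Jc.vol_pos
  have hk0 : 0 < B ^ (-ε0) := Real.rpow_pos_of_pos hB0 _
  have hkp : 0 < B ^ ε0 := Real.rpow_pos_of_pos hB0 _
  have h1 := P.tau_le_split hP s (R / 2 * s)
  have h5 : (P.S.tauT Q P.χ (closedBall P.x (R / 2 * s))).toReal
      ≤ (P.S.tauT Q P.χ (Jc.set g)).toReal :=
    ENNReal.toReal_mono (measure_ne_top _ _) (measure_mono hsub)
  have h6 := rev_gmax_le m hs0
  have h7 : B ^ (-ε0) * δ / 2 ≤ (s ^ m)⁻¹ * (P.S.tauT Q P.χ (Jc.set g)).toReal := by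
    have e2 : (2 * Real.pi * s ^ 2) ^ (-(m : ℝ) / 2)
        * (P.S.tauT Q P.χ (closedBall P.x (R / 2 * s))).toReal
        ≤ (s ^ m)⁻¹ * (P.S.tauT Q P.χ (Jc.set g)).toReal :=
      mul_le_mul h6 h5 ENNReal.toReal_nonneg (by positivity)
    have e3 := P.Dv_le_tau hP s
    linarith
  have h8 : Jc.vol ≤ (12 * R) ^ m * s ^ m := by
    unfold Cube.vol
    rw [← mul_pow]
    apply pow_le_pow_left₀ Jc.side_pos.le
    linarith
  have h10 : B ^ (-2 * ε0) = B ^ (-ε0) / B ^ ε0 := by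
    rw [Real.rpow_neg hB0.le, div_eq_mul_inv, ← mul_inv, ← Real.rpow_add hB0,
      ← Real.rpow_neg hB0.le]
    congr 1
    ring
  unfold Cube.dens
  rw [le_div_iff₀ hvol, h10]
  have h11 : s ^ m * (B ^ (-ε0) * δ / 2) ≤ (P.S.tauT Q P.χ (Jc.set g)).toReal := by
    have := mul_le_mul_of_nonneg_left h7 hsm'.le
    rwa [← mul_assoc, mul_inv_cancel₀ hsm'.ne', one_mul] at this
  have h12 : Jc.vol ≤ B ^ ε0 / 2 * s ^ m := by
    refine h8.trans (mul_le_mul_of_nonneg_right ?_ hsm'.le)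
    linarith
  calc B ^ (-ε0) / B ^ ε0 * δ * Jc.vol ≤ B ^ (-ε0) / B ^ ε0 * δ * (B ^ ε0 / 2 * s ^ m) :=
        mul_le_mul_of_nonneg_left h12 (by positivity)
    _ = s ^ m * (B ^ (-ε0) * δ / 2) := by field_simp
    _ ≤ _ := h11

/-- upper density of a cube of side `≥ R s` inside `ball x (t s)`. -/
theorem rev_cube_upper {κ Cg : ℝ} (P : PD m n Q) (hP : P.Ok κ Cg) {s δ X R t Y M : ℝ}
    (g : Fin m → Fin 3) (Jc : Cube m) (hs0 : 0 < s) (hδ0 : 0 < δ) (hR0 : 0 < R) (ht0 : 0 < t)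
    (hM0 : 0 ≤ M) (hY0 : 0 ≤ Y)
    (hJball : Jc.set g ⊆ ball P.x (t * s))
    (hbτ : P.S.tau Q (ball P.x (t * s)) ≤ ENNReal.ofReal (M * δ * (t * s) ^ m))
    (hside : R * s ≤ Jc.side) (htR : t ≤ Y * R) (hnum : M * Y ^ m ≤ X) :
    Jc.dens g (P.S.tauT Q P.χ) ≤ X * δ := by
  have hJmeas : MeasurableSet (Jc.set g) := Cube.measurableSet_set g Jc
  have hvol : 0 < Jc.vol := Jc.vol_pos
  have hr0 : 0 < R * s := by positivity
  have h1 : (P.S.tauT Q P.χ (Jc.set g)).toReal ≤ M * δ * (t * s) ^ m := by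
    apply ENNReal.toReal_le_of_le_ofReal (by positivity)
    exact ((rev_tauT_le hP.root hJmeas).trans (measure_mono hJball)).trans hbτ
  have h3 : (R * s) ^ m ≤ Jc.vol := pow_le_pow_left₀ hr0.le hside m
  have h5 : (t * s) ^ m ≤ Y ^ m * (R * s) ^ m := by
    rw [← mul_pow]
    apply pow_le_pow_left₀ (by positivity)
    calc t * s ≤ Y * R * s := mul_le_mul_of_nonneg_right htR hs0.le
      _ = _ := by ring
  have hX0 : 0 ≤ X := le_trans (by positivity) hnum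
  unfold Cube.dens
  rw [div_le_iff₀ hvol]
  have hRs : 0 < (R * s) ^ m := by positivity
  calc (P.S.tauT Q P.χ (Jc.set g)).toReal ≤ M * δ * (t * s) ^ m := h1
    _ ≤ M * δ * (Y ^ m * (R * s) ^ m) := mul_le_mul_of_nonneg_left h5 (by positivity)
    _ = (M * Y ^ m) * δ * (R * s) ^ m := by ring
    _ ≤ X * δ * (R * s) ^ m := by
        apply mul_le_mul_of_nonneg_right _ hRs.le
        exact mul_le_mul_of_nonneg_right hnum hδ0.le
    _ ≤ X * δ * Jc.vol := mul_le_mul_of_nonneg_left h3 (by positivity)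

/-- the Gaussian tail beyond `R/2`, `R = C1 √(log B)`, is below `B^{-ε0}/2`. -/
theorem rev_cube_tailnum {Ct ct C1 lg B ε0 R : ℝ} (hCt : 0 < Ct) (hC1c : 8 ≤ ct * C1 ^ 2)
    (hB1 : 1 ≤ B) (hBC : 2 * Ct ≤ B) (hlog1 : 1 ≤ Real.log B) (hlgsq : lg ^ 2 = Real.log B)
    (hR : R = C1 * lg) (hε1 : ε0 ≤ 1) :
    Ct * Real.exp (-ct * (R / 2) ^ 2) ≤ B ^ (-ε0) / 2 := by
  have hB0 : 0 < B := by linarith
  have h3 : Real.exp (-ct * (R / 2) ^ 2) ≤ B ^ (-(2 : ℝ)) := by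
    rw [Real.rpow_def_of_pos hB0]
    apply Real.exp_le_exp.2
    have e1 : -ct * (R / 2) ^ 2 = -(ct * C1 ^ 2) * Real.log B / 4 := by rw [hR, ← hlgsq]; ring
    rw [e1]
    have e2 : 8 * Real.log B ≤ ct * C1 ^ 2 * Real.log B :=
      mul_le_mul_of_nonneg_right hC1c (by linarith)
    linarith
  have e1 : B ^ (-(2 : ℝ)) = B ^ (-ε0) * B ^ (-(2 - ε0)) := by
    rw [← Real.rpow_add hB0]
    congr 1
    ring
  have e2 : B ^ (-(2 - ε0)) ≤ B ^ (-(1 : ℝ)) :=
    Real.rpow_le_rpow_of_exponent_le hB1 (by linarith)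
  have e3 : Ct * B ^ (-(1 : ℝ)) ≤ 1 / 2 := by
    rw [Real.rpow_neg_one, ← div_eq_mul_inv, div_le_iff₀ hB0]
    linarith
  have e4 : Ct * B ^ (-(2 - ε0)) ≤ 1 / 2 := (mul_le_mul_of_nonneg_left e2 hCt.le).trans e3
  have hk0 : 0 < B ^ (-ε0) := Real.rpow_pos_of_pos hB0 _
  calc Ct * Real.exp (-ct * (R / 2) ^ 2) ≤ Ct * B ^ (-(2 : ℝ)) :=
        mul_le_mul_of_nonneg_left h3 hCt.le
    _ = B ^ (-ε0) * (Ct * B ^ (-(2 - ε0))) := by rw [e1]; ring
    _ ≤ B ^ (-ε0) * (1 / 2) := mul_le_mul_of_nonneg_left e4 hk0.le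
    _ = _ := by ring

/-- AE (6.9): the cube. -/
theorem reverse_cube (m n Q : ℕ) (hm : 1 ≤ m) (hQ : 1 ≤ Q) (κ Cg K1 J ε0 : ℝ) (hK1 : 1 ≤ K1)
    (hJ : 0 ≤ J) (hε : 0 < ε0) (hε1 : ε0 ≤ 1) :
    ∃ C1min : ℝ, ∀ C1 : ℝ, C1min ≤ C1 → ∃ B0 T0 : ℝ, ∀ P : PD m n Q, P.Ok κ Cg → T0 ≤ P.T →
      ∀ s δ B, P.Ctl K1 J s δ → B0 ≤ B → B ≤ P.T → Real.exp (-2 * B) ≤ δ → δ ≤ Real.exp (-B) →
      B ^ (-ε0) * δ ≤ P.Dv s →
      ∃ (g : Fin m → Fin 3) (Jc : Cube m),
        ball P.x (C1 * Real.sqrt (Real.log B) * s) ⊆ interior (Jc.set g) ∧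
        Jc.set g ⊆ ball (0 : E m) 2 ∧
        Jc.side ≤ 12 * (C1 * Real.sqrt (Real.log B) * s) ∧
        B ^ (-2 * ε0) * δ ≤ Jc.dens g (P.S.tauT Q P.χ) ∧
        Jc.dens g (P.S.tauT Q P.χ) ≤ B ^ ε0 * δ := by
  obtain ⟨Ct, ct, Tt, hCt, hct, htail⟩ := ctl_tail m n Q hm hQ κ Cg K1 J hK1 hJ 0
  obtain ⟨Cb, Tb, hCb, hball⟩ := ctl_ball m n Q hm hQ κ Cg K1 J hK1 hJ
  refine ⟨max 2 (Real.sqrt (8 / ct)), fun C1 hC1 => ?_⟩
  have hC12 : 2 ≤ C1 := (le_max_left _ _).trans hC1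
  have hC10 : 0 < C1 := by linarith
  have hC1c : 8 ≤ ct * C1 ^ 2 := by
    have h1 : Real.sqrt (8 / ct) ≤ C1 := (le_max_right _ _).trans hC1
    have h2 : 8 / ct ≤ C1 ^ 2 := by
      have := Real.sq_sqrt (show (0 : ℝ) ≤ 8 / ct by positivity)
      rw [← this]
      exact pow_le_pow_left₀ (Real.sqrt_nonneg _) h1 2
    rw [div_le_iff₀ hct] at h2
    linarith
  obtain ⟨sm, hsm⟩ : ∃ sm : ℝ, sm = Real.sqrt m := ⟨_, rfl⟩
  have hsm1 : 1 ≤ sm := by
    rw [hsm, Real.one_le_sqrt]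
    exact_mod_cast hm
  have hsm0 : 0 ≤ sm := by linarith
  have hn1 := rev_log_num (2 * (12 * C1) ^ m) m ε0 hε
  have hn2 := rev_log_num (Cb * (12 * sm + 1) ^ m * ((12 * sm + 1) * C1) ^ J) J ε0 hε
  obtain ⟨B1, hB1⟩ := Filter.eventually_atTop.1 (hn1.and hn2)
  obtain ⟨T1, hT1⟩ := Filter.eventually_atTop.1 (cmpl_rate_F Q 0)
  refine ⟨max B1 (max (Real.exp 1) (2 * Ct)), max (max Tt Tb) (max T1 (max 4 (12 * sm * C1 + 1))),
    ?_⟩
  intro P hP hT s δ B hctl hB hBT hδ1 hδ2 hDv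
  have hTt : Tt ≤ P.T := ((le_max_left _ _).trans (le_max_left _ _)).trans hT
  have hTb : Tb ≤ P.T := ((le_max_right _ _).trans (le_max_left _ _)).trans hT
  have hTF : 0 ≤ FQ Q P.T := hT1 _ (((le_max_left _ _).trans (le_max_right _ _)).trans hT)
  have hT4 : 4 ≤ P.T :=
    (((le_max_left _ _).trans (le_max_right _ _)).trans (le_max_right _ _)).trans hT
  have hTC : 12 * sm * C1 + 1 ≤ P.T :=
    (((le_max_right _ _).trans (le_max_right _ _)).trans (le_max_right _ _)).trans hT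
  obtain ⟨hnum1, hnum2⟩ := hB1 B ((le_max_left _ _).trans hB)
  have hBe : Real.exp 1 ≤ B := ((le_max_left _ _).trans (le_max_right _ _)).trans hB
  have hBC : 2 * Ct ≤ B := ((le_max_right _ _).trans (le_max_right _ _)).trans hB
  have hB0 : 0 < B := lt_of_lt_of_le (Real.exp_pos 1) hBe
  have hB1' : 1 ≤ B := by
    have := Real.add_one_le_exp (1 : ℝ)
    linarith
  have hlog1 : 1 ≤ Real.log B := by rwa [Real.le_log_iff_exp_le hB0]
  obtain ⟨lg, hlg⟩ : ∃ lg : ℝ, lg = Real.sqrt (Real.log B) := ⟨_, rfl⟩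
  have hlg1 : 1 ≤ lg := by rw [hlg, Real.one_le_sqrt]; exact hlog1
  have hlgsq : lg ^ 2 = Real.log B := by rw [hlg]; exact Real.sq_sqrt (by linarith)
  have hlgle : lg ≤ Real.log B := by
    rw [← hlgsq, sq]
    exact le_mul_of_one_le_left (by linarith) hlg1
  have hlgB : lg ≤ B := hlgle.trans (by have := Real.log_le_sub_one_of_pos hB0; linarith)
  rw [← hlg]
  have hs0 : 0 < s := hctl.v_pos
  have hδ0 : 0 < δ := lt_of_lt_of_le (Real.exp_pos _) hδ1
  obtain ⟨R, hR⟩ : ∃ R : ℝ, R = C1 * lg := ⟨_, rfl⟩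
  rw [← hR]
  obtain ⟨t, ht⟩ : ∃ t : ℝ, t = 12 * sm * R + 1 := ⟨_, rfl⟩
  obtain ⟨hR2, ht1, htR, htT, hRt⟩ := rev_cube_scale hsm1 hC12 hlg1 hlgB hBT hT4 hTC hR ht
  have hR0 : 0 < R := by linarith
  have htρ : t * s ≤ P.ρ :=
    calc t * s ≤ P.T ^ 4 * s := mul_le_mul_of_nonneg_right htT hs0.le
      _ = s * P.T ^ 4 := mul_comm _ _
      _ ≤ P.ρ := hctl.room
  have hρ12 : P.ρ ≤ 1 / 12 := by
    show rhoT Q P.T ≤ 1 / 12
    unfold rhoT
    have e1 : etaT Q P.T ≤ 1 := by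
      unfold etaT
      exact Real.exp_le_one_iff.2 (by linarith)
    have e2 : etaT Q P.T ^ 4 ≤ 1 := pow_le_one₀ (cmpl_etaT_pos Q _).le e1
    rw [div_le_iff₀ (by positivity)]
    nlinarith
  have hr0 : 0 < R * s := by positivity
  have hrt : R * s ≤ t * s := mul_le_mul_of_nonneg_right hRt hs0.le
  obtain ⟨g, Jc, hsub, hside⟩ := exists_cube m P.x (R * s) hr0 (by linarith)
  obtain ⟨hb2, hbτ⟩ := hball P hP hTb s δ hctl t ht1 htρ
  have hxJ : P.x ∈ Jc.set g := interior_subset (hsub (mem_ball_self hr0))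
  have hJball : Jc.set g ⊆ ball P.x (t * s) := by
    intro y hy
    have d1 := Cube.norm_sub_le g Jc hxJ hy
    rw [← hsm] at d1
    rw [mem_ball, dist_eq_norm]
    have d2 : sm * Jc.side ≤ sm * (12 * (R * s)) := mul_le_mul_of_nonneg_left hside hsm0
    have d3 : t * s = sm * (12 * (R * s)) + s := by rw [ht]; ring
    linarith
  refine ⟨g, Jc, hsub, hJball.trans hb2, hside, ?_, ?_⟩
  · -- lower density
    have h2 := htail P hP hTt s δ hctl (R / 2) (by linarith)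
    simp only [pow_zero, mul_one] at h2
    have h3 := rev_cube_tailnum hCt hC1c hB1' hBC hlog1 hlgsq hR hε1
    have h9 : 2 * (12 * R) ^ m ≤ B ^ ε0 := by
      refine le_trans ?_ hnum1
      rw [Real.rpow_natCast, hR, mul_assoc, ← mul_pow]
      apply mul_le_mul_of_nonneg_left _ (by norm_num)
      apply pow_le_pow_left₀ (by positivity)
      have : C1 * lg ≤ C1 * Real.log B := mul_le_mul_of_nonneg_left hlgle hC10.le
      linarith
    refine rev_cube_lower P hP g Jc hs0 hδ0 hB0 hR0 ?_ hside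
      (h2.trans (mul_le_mul_of_nonneg_right h3 hδ0.le)) hDv h9
    refine (closedBall_subset_ball ?_).trans (hsub.trans interior_subset)
    have : R / 2 * s = R * s / 2 := by ring
    linarith
  · -- upper density
    have h2 : R * s ≤ Jc.side :=
      Cube.le_side_of_ball_subset hm g Jc hr0 (hsub.trans interior_subset)
    have h4 : t ^ J ≤ ((12 * sm + 1) * C1) ^ J * Real.log B ^ J := by
      rw [← Real.mul_rpow (by positivity) (by linarith)]
      apply Real.rpow_le_rpow (by linarith) _ hJ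
      refine htR.trans ?_
      rw [hR, mul_assoc]
      apply mul_le_mul_of_nonneg_left _ (by positivity)
      exact mul_le_mul_of_nonneg_left hlgle hC10.le
    have ht0 : 0 < t := by linarith
    refine rev_cube_upper P hP (M := Cb * t ^ J) (Y := 12 * sm + 1) g Jc hs0 hδ0 hR0 ht0
      (by positivity) (by positivity) hJball hbτ h2 htR ?_
    refine le_trans ?_ hnum2
    calc Cb * t ^ J * (12 * sm + 1) ^ m
        ≤ Cb * (((12 * sm + 1) * C1) ^ J * Real.log B ^ J) * (12 * sm + 1) ^ m := by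
          apply mul_le_mul_of_nonneg_right _ (by positivity)
          exact mul_le_mul_of_nonneg_left h4 hCb.le
      _ = _ := by ring

end Claimed.Agent.R322.Sx
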