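import Mathlib

/-!
# R322 / Sx / Reverse / PayNum : numerics of `reverse_pay` (Mathlib only)   (helper43)

`pay_num` : all thresholds on `B`;  `pay_arith1..4` : the real-number skeleton of AE (6.14)-(6.16), (6.10), with
weighted AM-GM (`θ1 = k²/(8s)`, `θ2 = 8 Cp/(k s)`) instead of Cauchy-Schwarz and Young (`λ = s √δ B^{3m}`) instead of Hölder.
-/

set_option autoImplicit false

namespace Claimed.Agent.R322.Sx.Rev

open Filter Asymptotics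

/-- powers of `√(log B)` are eventually below any positive power of `B`. -/
theorem ev_sqrtlog_pow (a ε : ℝ) (N : ℕ) (hε : 0 < ε) :
    ∀ᶠ B : ℝ in atTop, (a * Real.sqrt (Real.log B)) ^ N ≤ B ^ ε := by
  have h1 := (isLittleO_log_rpow_rpow_atTop ((N : ℝ) / 2) hε).bound
    (c := 1 / (|a| ^ N + 1)) (by positivity)
  filter_upwards [h1, eventually_ge_atTop (1 : ℝ)] with B hB hB1
  have hL : 0 ≤ Real.log B := Real.log_nonneg hB1
  have hB0 : 0 < B := by linarith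
  rw [Real.norm_of_nonneg (Real.rpow_nonneg hL _), Real.norm_of_nonneg (Real.rpow_nonneg hB0.le _)]
    at hB
  have e1 : Real.sqrt (Real.log B) ^ N = Real.log B ^ ((N : ℝ) / 2) := by
    rw [Real.sqrt_eq_rpow, ← Real.rpow_natCast, ← Real.rpow_mul hL]
    congr 1
    ring
  have hpos : 0 < |a| ^ N + 1 := by positivity
  calc (a * Real.sqrt (Real.log B)) ^ N ≤ |(a * Real.sqrt (Real.log B)) ^ N| := le_abs_self _
    _ = |a| ^ N * Real.log B ^ ((N : ℝ) / 2) := by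
        rw [abs_pow, abs_mul, abs_of_nonneg (Real.sqrt_nonneg _), mul_pow, e1]
    _ ≤ |a| ^ N * (1 / (|a| ^ N + 1) * B ^ ε) := by
        apply mul_le_mul_of_nonneg_left hB (by positivity)
    _ = (|a| ^ N / (|a| ^ N + 1)) * B ^ ε := by ring
    _ ≤ 1 * B ^ ε := by
        apply mul_le_mul_of_nonneg_right _ (Real.rpow_nonneg hB0.le _)
        rw [div_le_one hpos]
        linarith
    _ = B ^ ε := one_mul _

theorem ev_exp_neg_le (a : ℝ) : ∀ᶠ B : ℝ in atTop, Real.exp (-B) ≤ B ^ (-a) := by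
  have h := (tendsto_rpow_mul_exp_neg_mul_atTop_nhds_zero a 1 one_pos).eventually
    (ge_mem_nhds (show (0 : ℝ) < 1 by norm_num))
  filter_upwards [h, eventually_gt_atTop (0 : ℝ)] with B hB hB0
  rw [Real.rpow_neg hB0.le]
  have hp : 0 < B ^ a := Real.rpow_pos_of_pos hB0 _
  rw [le_inv_comm₀ (Real.exp_pos _) hp, ← Real.exp_neg, neg_neg]
  have e : B ^ a * Real.exp (-1 * B) = B ^ a / Real.exp B := by
    rw [neg_one_mul, Real.exp_neg]; rfl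
  rw [e, div_le_one (Real.exp_pos _)] at hB
  exact hB

/-- all thresholds on `B` in `reverse_pay`. -/
theorem pay_num (m Q : ℕ) (hm : 1 ≤ m) (ε0 c Ct Cp CV C1 : ℝ) (hε : 0 < ε0) (hε1 : ε0 ≤ 1)
    (hCt : 0 < Ct) (hCp : 0 < Cp) (hCV : 0 < CV) (hC1 : 0 < C1)
    (hcC : 16 ≤ c * C1 ^ 2) :
    ∃ B0 : ℝ, ∀ B : ℝ, B0 ≤ B →
      2 ≤ B ∧ 2 ≤ C1 * Real.sqrt (Real.log B) ∧
      64 * (Ct * Real.exp (-c * (C1 * Real.sqrt (Real.log B) / 2) ^ 2)) ≤ (B ^ (-ε0)) ^ 3 ∧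
      64 * Cp * ((B ^ (3 * m)) ^ 2 * ((12 * (C1 * Real.sqrt (Real.log B))) ^ m * B ^ ε0
            * ((2 * Q + 1) * B ^ (-(6 * (m : ℝ) + 8))))
          + (B ^ (3 * m)) ^ (2 - (2 + 2 / (m : ℝ))) * CV ^ (2 + 2 / (m : ℝ))
            * (B ^ (-ε0)) ^ (-(2 + 2 / (m : ℝ)) / 2)) ≤ (B ^ (-ε0)) ^ 2 ∧
      4 * (C1 * Real.sqrt (Real.log B)) ^ 2 * ((12 * (C1 * Real.sqrt (Real.log B))) ^ m * B ^ ε0)
          * B ^ (-6 * ε0) ≤ (B ^ (-ε0)) ^ 3 ∧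
      Real.exp (-B) ≤ B ^ (-(6 * (m : ℝ) + 8)) := by
  have hm' : (1 : ℝ) ≤ m := by exact_mod_cast hm
  have hm0 : (0 : ℝ) < m := by linarith
  have E1 := ev_sqrtlog_pow (12 * C1) ε0 m hε
  have E2 := ev_sqrtlog_pow (2 * C1) ε0 2 hε
  have E3 := ev_exp_neg_le (6 * (m : ℝ) + 8)
  have E4 : ∀ᶠ B : ℝ in atTop, (2 / C1) ^ 2 ≤ Real.log B :=
    Real.tendsto_log_atTop.eventually_ge_atTop _
  obtain ⟨B1, hB1⟩ := eventually_atTop.1 (E1.and (E2.and (E3.and E4)))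
  refine ⟨max B1 (max 2 (max (64 * Ct) (64 * Cp * (2 * Q + 1 + CV ^ (2 + 2 / (m : ℝ)))))),
    fun B hB => ?_⟩
  obtain ⟨e1, e2, e3, e4⟩ := hB1 B ((le_max_left _ _).trans hB)
  have hB2 : 2 ≤ B := ((le_max_left _ _).trans (le_max_right _ _)).trans hB
  have hBt : 64 * Ct ≤ B :=
    ((le_max_left _ _).trans ((le_max_right _ _).trans (le_max_right _ _))).trans hB
  have hBp : 64 * Cp * (2 * Q + 1 + CV ^ (2 + 2 / (m : ℝ))) ≤ B :=
    ((le_max_right _ _).trans ((le_max_right _ _).trans (le_max_right _ _))).trans hB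
  have hB0 : 0 < B := by linarith
  have hB1' : 1 ≤ B := by linarith
  have hL : 0 ≤ Real.log B := Real.log_nonneg hB1'
  obtain ⟨r, hr⟩ : ∃ r : ℝ, r = Real.sqrt (Real.log B) := ⟨_, rfl⟩
  have hr0 : 0 ≤ r := hr ▸ Real.sqrt_nonneg _
  have hr2 : r ^ 2 = Real.log B := by rw [hr]; exact Real.sq_sqrt hL
  rw [← hr] at e1 e2 ⊢
  have mono : ∀ {a b : ℝ}, a ≤ b → B ^ a ≤ B ^ b := fun h =>
    Real.rpow_le_rpow_of_exponent_le hB1' h
  have pw : ∀ (a : ℝ) (N : ℕ), (B ^ a) ^ N = B ^ (a * N) := fun a N => by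
    rw [← Real.rpow_natCast, ← Real.rpow_mul hB0.le]
  have pos : ∀ a : ℝ, 0 < B ^ a := fun a => Real.rpow_pos_of_pos hB0 a
  refine ⟨hB2, ?_, ?_, ?_, ?_, e3⟩
  · -- `2 ≤ C1 r`
    have h1 : 2 / C1 ≤ r := by
      rw [hr]
      exact Real.le_sqrt_of_sq_le e4
    rw [div_le_iff₀ hC1] at h1
    linarith
  · -- tail
    have h1 : Real.exp (-c * (C1 * r / 2) ^ 2) ≤ B ^ (-(4 : ℝ)) := by
      rw [Real.rpow_def_of_pos hB0]
      apply Real.exp_le_exp.2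
      have : (C1 * r / 2) ^ 2 = C1 ^ 2 * Real.log B / 4 := by rw [← hr2]; ring
      rw [this]
      nlinarith
    have h2 : B ^ (-(4 : ℝ)) = B ^ (-(3 : ℝ)) * B⁻¹ := by
      rw [← Real.rpow_neg_one B, ← Real.rpow_add hB0]; norm_num
    have h3 : B ^ (-(3 : ℝ)) ≤ (B ^ (-ε0)) ^ 3 := by
      rw [pw]; apply mono; push_cast; linarith
    calc 64 * (Ct * Real.exp (-c * (C1 * r / 2) ^ 2)) ≤ 64 * (Ct * (B ^ (-(3 : ℝ)) * B⁻¹)) := by
          rw [← h2]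
          apply mul_le_mul_of_nonneg_left _ (by norm_num)
          exact mul_le_mul_of_nonneg_left h1 hCt.le
      _ = B ^ (-(3 : ℝ)) * ((64 * Ct) * B⁻¹) := by ring
      _ ≤ B ^ (-(3 : ℝ)) * 1 := by
          apply mul_le_mul_of_nonneg_left _ (pos _).le
          rw [← div_eq_mul_inv, div_le_one hB0]
          exact hBt
      _ ≤ _ := by rw [mul_one]; exact h3
  · -- bad part
    obtain ⟨p, hp⟩ : ∃ p : ℝ, p = 2 + 2 / (m : ℝ) := ⟨_, rfl⟩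
    rw [← hp] at hBp ⊢
    have hp4 : p ≤ 4 := by
      rw [hp]
      have : 2 / (m : ℝ) ≤ 2 := by rw [div_le_iff₀ hm0]; linarith
      linarith
    have hp2 : 2 ≤ p := by
      rw [hp]
      have : 0 ≤ 2 / (m : ℝ) := by positivity
      linarith
    have hCVp : 0 < CV ^ p := Real.rpow_pos_of_pos hCV _
    have e1' : (12 * (C1 * r)) ^ m ≤ B ^ ε0 := by
      rw [← mul_assoc]; exact e1
    have hlm : 0 ≤ (12 * (C1 * r)) ^ m := by positivity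
    have t1 : (B ^ (3 * m)) ^ 2 * ((12 * (C1 * r)) ^ m * B ^ ε0
        * ((2 * Q + 1) * B ^ (-(6 * (m : ℝ) + 8)))) ≤ (2 * Q + 1) * B ^ (-(4 : ℝ)) := by
      have a1 : (B ^ (3 * m)) ^ 2 = B ^ (6 * (m : ℝ)) := by
        rw [← pow_mul, ← Real.rpow_natCast]; congr 1; push_cast; ring
      rw [a1]
      calc B ^ (6 * (m : ℝ)) * ((12 * (C1 * r)) ^ m * B ^ ε0
            * ((2 * Q + 1) * B ^ (-(6 * (m : ℝ) + 8))))
          ≤ B ^ (6 * (m : ℝ)) * (B ^ ε0 * B ^ ε0 * ((2 * Q + 1) * B ^ (-(6 * (m : ℝ) + 8)))) := by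
            apply mul_le_mul_of_nonneg_left _ (pos _).le
            apply mul_le_mul_of_nonneg_right _ (by have := pos (-(6 * (m : ℝ) + 8)); positivity)
            exact mul_le_mul_of_nonneg_right e1' (pos _).le
        _ = (2 * Q + 1) * (B ^ (6 * (m : ℝ)) * B ^ ε0 * B ^ ε0 * B ^ (-(6 * (m : ℝ) + 8))) := by
            ring
        _ = (2 * Q + 1) * B ^ (2 * ε0 - 8) := by
            rw [← Real.rpow_add hB0, ← Real.rpow_add hB0, ← Real.rpow_add hB0]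
            congr 2; ring
        _ ≤ _ := by
            apply mul_le_mul_of_nonneg_left (mono (by linarith)) (by positivity)
    have t2 : (B ^ (3 * m)) ^ (2 - p) * CV ^ p * (B ^ (-ε0)) ^ (-p / 2)
        ≤ CV ^ p * B ^ (-(4 : ℝ)) := by
      have a1 : (B ^ (3 * m)) ^ (2 - p) = B ^ (-(6 : ℝ)) := by
        rw [← Real.rpow_natCast, ← Real.rpow_mul hB0.le]
        congr 1
        rw [hp]; push_cast; field_simp; ring
      have a2 : (B ^ (-ε0)) ^ (-p / 2) ≤ B ^ (2 : ℝ) := by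
        rw [← Real.rpow_mul hB0.le]
        apply mono
        nlinarith
      rw [a1]
      calc B ^ (-(6 : ℝ)) * CV ^ p * (B ^ (-ε0)) ^ (-p / 2)
          ≤ B ^ (-(6 : ℝ)) * CV ^ p * B ^ (2 : ℝ) :=
            mul_le_mul_of_nonneg_left a2 (by have := pos (-(6 : ℝ)); positivity)
        _ = CV ^ p * (B ^ (-(6 : ℝ)) * B ^ (2 : ℝ)) := by ring
        _ = _ := by rw [← Real.rpow_add hB0]; norm_num
    have h2 : B ^ (-(4 : ℝ)) = B ^ (-(3 : ℝ)) * B⁻¹ := by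
      rw [← Real.rpow_neg_one B, ← Real.rpow_add hB0]; norm_num
    have h3 : B ^ (-(3 : ℝ)) ≤ (B ^ (-ε0)) ^ 2 := by
      rw [pw]; apply mono; push_cast; linarith
    calc 64 * Cp * ((B ^ (3 * m)) ^ 2 * ((12 * (C1 * r)) ^ m * B ^ ε0
            * ((2 * Q + 1) * B ^ (-(6 * (m : ℝ) + 8))))
          + (B ^ (3 * m)) ^ (2 - p) * CV ^ p * (B ^ (-ε0)) ^ (-p / 2))
        ≤ 64 * Cp * ((2 * Q + 1) * B ^ (-(4 : ℝ)) + CV ^ p * B ^ (-(4 : ℝ))) := by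
          apply mul_le_mul_of_nonneg_left (add_le_add t1 t2) (by positivity)
      _ = B ^ (-(3 : ℝ)) * ((64 * Cp * (2 * Q + 1 + CV ^ p)) * B⁻¹) := by rw [h2]; ring
      _ ≤ B ^ (-(3 : ℝ)) * 1 := by
          apply mul_le_mul_of_nonneg_left _ (pos _).le
          rw [← div_eq_mul_inv, div_le_one hB0]
          exact hBp
      _ ≤ _ := by rw [mul_one]; exact h3
  · -- ratio
    have e1' : (12 * (C1 * r)) ^ m ≤ B ^ ε0 := by
      rw [← mul_assoc]; exact e1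
    have e2' : 4 * (C1 * r) ^ 2 ≤ B ^ ε0 := by
      calc 4 * (C1 * r) ^ 2 = (2 * C1 * r) ^ 2 := by ring
        _ ≤ _ := e2
    have hlm : 0 ≤ (12 * (C1 * r)) ^ m := by positivity
    calc 4 * (C1 * r) ^ 2 * ((12 * (C1 * r)) ^ m * B ^ ε0) * B ^ (-6 * ε0)
        ≤ B ^ ε0 * (B ^ ε0 * B ^ ε0) * B ^ (-6 * ε0) := by
          apply mul_le_mul_of_nonneg_right _ (pos _).le
          apply mul_le_mul e2' _ (by have := pos ε0; positivity) (pos _).le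
          exact mul_le_mul_of_nonneg_right e1' (pos _).le
      _ = B ^ (-ε0 * 3) := by
          rw [← Real.rpow_add hB0, ← Real.rpow_add hB0, ← Real.rpow_add hB0]
          congr 1; ring
      _ = _ := by rw [pw]; norm_num

/-- from the split flux to the lower bound of the low part. -/
theorem pay_arith1 {s δ k R sm NL flux A tT tL aH Ee t w Cp : ℝ} (hs : 0 < s) (hδ : 0 < δ)
    (hk : 0 < k) (hCp : 0 < Cp) (hsm : 0 < sm)
    (hfl : k * (s ^ 2 * δ) / 2 ≤ flux)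
    (hfu : flux ≤ s * ((k ^ 2 / (8 * s)) / 2 * A + 1 / (2 * (k ^ 2 / (8 * s))) * (tT + tL)
      + (8 * Cp / (k * s)) / 2 * aH + 1 / (2 * (8 * Cp / (k * s))) * Ee))
    (hA : A ≤ s ^ 2 * δ / k) (htT : tT ≤ t * δ) (ht : 64 * t ≤ k ^ 3)
    (htL : tL ≤ (R / 2) ^ 2 * (sm⁻¹ * NL)) (haH : aH ≤ w * (s ^ 2 * δ)) (hw : 64 * Cp * w ≤ k ^ 2)
    (hE : Ee ≤ Cp * δ) :
    k ^ 3 * δ * sm ≤ 4 * R ^ 2 * NL := by
  have e : s * ((k ^ 2 / (8 * s)) / 2 * A + 1 / (2 * (k ^ 2 / (8 * s))) * (tT + tL)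
      + (8 * Cp / (k * s)) / 2 * aH + 1 / (2 * (8 * Cp / (k * s))) * Ee)
      = k ^ 2 / 16 * A + 4 * s ^ 2 / k ^ 2 * tT + 4 * s ^ 2 / k ^ 2 * tL + 4 * Cp / k * aH
        + k * s ^ 2 / (16 * Cp) * Ee := by
    field_simp
    ring
  rw [e] at hfu
  have T1 : k ^ 2 / 16 * A ≤ k * (s ^ 2 * δ) / 16 := by
    calc k ^ 2 / 16 * A ≤ k ^ 2 / 16 * (s ^ 2 * δ / k) :=
          mul_le_mul_of_nonneg_left hA (by positivity)
      _ = _ := by field_simp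
  have T2 : 4 * s ^ 2 / k ^ 2 * tT ≤ k * (s ^ 2 * δ) / 16 := by
    calc 4 * s ^ 2 / k ^ 2 * tT ≤ 4 * s ^ 2 / k ^ 2 * (t * δ) :=
          mul_le_mul_of_nonneg_left htT (by positivity)
      _ = (64 * t) * (s ^ 2 * δ / (16 * k ^ 2)) := by field_simp; ring
      _ ≤ k ^ 3 * (s ^ 2 * δ / (16 * k ^ 2)) := mul_le_mul_of_nonneg_right ht (by positivity)
      _ = _ := by field_simp
  have T3 : 4 * s ^ 2 / k ^ 2 * tL ≤ s ^ 2 * R ^ 2 * NL / (k ^ 2 * sm) := by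
    calc 4 * s ^ 2 / k ^ 2 * tL ≤ 4 * s ^ 2 / k ^ 2 * ((R / 2) ^ 2 * (sm⁻¹ * NL)) :=
          mul_le_mul_of_nonneg_left htL (by positivity)
      _ = _ := by field_simp; ring
  have T4 : 4 * Cp / k * aH ≤ k * (s ^ 2 * δ) / 16 := by
    calc 4 * Cp / k * aH ≤ 4 * Cp / k * (w * (s ^ 2 * δ)) :=
          mul_le_mul_of_nonneg_left haH (by positivity)
      _ = (64 * Cp * w) * (s ^ 2 * δ / (16 * k)) := by field_simp; ring
      _ ≤ k ^ 2 * (s ^ 2 * δ / (16 * k)) := mul_le_mul_of_nonneg_right hw (by positivity)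
      _ = _ := by field_simp
  have T5 : k * s ^ 2 / (16 * Cp) * Ee ≤ k * (s ^ 2 * δ) / 16 := by
    calc k * s ^ 2 / (16 * Cp) * Ee ≤ k * s ^ 2 / (16 * Cp) * (Cp * δ) :=
          mul_le_mul_of_nonneg_left hE (by positivity)
      _ = _ := by field_simp
  have h1 : k * (s ^ 2 * δ) / 4 ≤ s ^ 2 * R ^ 2 * NL / (k ^ 2 * sm) := by linarith
  rw [le_div_iff₀ (by positivity)] at h1
  have h2 : s ^ 2 * (k ^ 3 * δ * sm) ≤ s ^ 2 * (4 * R ^ 2 * NL) := by nlinarith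
  exact le_of_mul_le_mul_left h2 (by positivity)

/-- the Young parameter `λ = s √δ μ0`. -/
theorem pay_arith2 {s δ k μ0 h hbar Mp aH CV p : ℝ} (hs : 0 < s) (hδ : 0 < δ) (hk : 0 < k)
    (hμ : 0 < μ0) (hCV : 0 < CV)
    (haH : aH ≤ (s * Real.sqrt δ * μ0) ^ 2 * h + (s * Real.sqrt δ * μ0) ^ (2 - p) * Mp)
    (hh : h ≤ hbar) (hMp : Mp ≤ (CV * s * Real.sqrt (δ / k)) ^ p) :
    aH ≤ (μ0 ^ 2 * hbar + μ0 ^ (2 - p) * CV ^ p * k ^ (-p / 2)) * (s ^ 2 * δ) := by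
  obtain ⟨a, ha⟩ : ∃ a : ℝ, a = s * Real.sqrt δ := ⟨_, rfl⟩
  have ha0 : 0 < a := by rw [ha]; exact mul_pos hs (Real.sqrt_pos.2 hδ)
  have ha2 : a ^ 2 = s ^ 2 * δ := by rw [ha, mul_pow, Real.sq_sqrt hδ.le]
  have e1 : CV * s * Real.sqrt (δ / k) = CV * (a * k ^ (-(1 / 2) : ℝ)) := by
    rw [Real.sqrt_div hδ.le, Real.sqrt_eq_rpow k, Real.rpow_neg hk.le, ha]
    ring
  have hkk : 0 < k ^ (-(1 / 2) : ℝ) := Real.rpow_pos_of_pos hk _
  have e2 : (CV * (a * k ^ (-(1 / 2) : ℝ))) ^ p = CV ^ p * (a ^ p * k ^ (-p / 2)) := by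
    rw [Real.mul_rpow hCV.le (by positivity), Real.mul_rpow ha0.le hkk.le, ← Real.rpow_mul hk.le]
    congr 3
    ring
  have e3 : (a * μ0) ^ (2 - p) = a ^ (2 - p) * μ0 ^ (2 - p) := Real.mul_rpow ha0.le hμ.le
  have e4 : a ^ (2 - p) * a ^ p = a ^ 2 := by
    rw [← Real.rpow_add ha0, ← Real.rpow_two]; congr 1; ring
  rw [← ha] at haH
  rw [e1, e2] at hMp
  have hpos : 0 ≤ (a * μ0) ^ (2 - p) := Real.rpow_nonneg (by positivity) _
  calc aH ≤ (a * μ0) ^ 2 * h + (a * μ0) ^ (2 - p) * Mp := haH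
    _ ≤ (a * μ0) ^ 2 * hbar + (a * μ0) ^ (2 - p) * (CV ^ p * (a ^ p * k ^ (-p / 2))) :=
        add_le_add (mul_le_mul_of_nonneg_left hh (by positivity))
          (mul_le_mul_of_nonneg_left hMp hpos)
    _ = μ0 ^ 2 * hbar * a ^ 2 + μ0 ^ (2 - p) * CV ^ p * k ^ (-p / 2) * (a ^ (2 - p) * a ^ p) := by
        rw [e3]; ring
    _ = _ := by rw [e4, ha2]; ring

/-- Gaussian mass of the bad part. -/
theorem pay_arith3 {cG sm NJ nuH h δ β Bε lm Λ : ℝ} {Q : ℕ} (hcG : 0 ≤ cG) (hcs : cG * sm ≤ 1)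
    (hsm : 0 < sm) (hδ : 0 < δ) (hβ : 0 < β) (hBε : 0 ≤ Bε) (hl : 0 ≤ lm)
    (hh : h ≤ cG * nuH) (hnu : nuH ≤ NJ + Q * (2 * (Λ⁻¹ * NJ))) (hΛ : Λ⁻¹ = β / δ)
    (hNJ : NJ ≤ Bε * δ * (lm * sm)) (hδβ : δ ≤ β) :
    h ≤ lm * Bε * ((2 * Q + 1) * β) := by
  have hQ : (0 : ℝ) ≤ Q := Nat.cast_nonneg Q
  have h1 : nuH ≤ (1 + 2 * Q * (β / δ)) * NJ := by
    rw [hΛ] at hnu
    calc nuH ≤ NJ + Q * (2 * (β / δ * NJ)) := hnu
      _ = _ := by ring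
  have h2 : (1 + 2 * Q * (β / δ)) * NJ ≤ (1 + 2 * Q * (β / δ)) * (Bε * δ * (lm * sm)) :=
    mul_le_mul_of_nonneg_left hNJ (by positivity)
  have h3 : (1 + 2 * Q * (β / δ)) * (Bε * δ * (lm * sm)) = (δ + 2 * Q * β) * (Bε * lm) * sm := by
    field_simp
  have h4 : (δ + 2 * Q * β) * (Bε * lm) * sm ≤ ((2 * Q + 1) * β) * (Bε * lm) * sm := by
    apply mul_le_mul_of_nonneg_right _ hsm.le
    apply mul_le_mul_of_nonneg_right _ (by positivity)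
    linarith
  have h5 : nuH ≤ ((2 * Q + 1) * β) * (Bε * lm) * sm := by linarith
  calc h ≤ cG * nuH := hh
    _ ≤ cG * (((2 * Q + 1) * β) * (Bε * lm) * sm) := mul_le_mul_of_nonneg_left h5 hcG
    _ = (cG * sm) * (((2 * Q + 1) * β) * (Bε * lm)) := by ring
    _ ≤ 1 * (((2 * Q + 1) * β) * (Bε * lm)) := mul_le_mul_of_nonneg_right hcs (by positivity)
    _ = _ := by ring

/-- the final ratio. -/
theorem pay_arith4 {k δ sm R NL NJ Bε lm B6 : ℝ} (hR : 0 < R) (hδ : 0 < δ) (hsm : 0 < sm)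
    (hB6 : 0 ≤ B6) (h1 : k ^ 3 * δ * sm ≤ 4 * R ^ 2 * NL) (hNJ : NJ ≤ Bε * δ * (lm * sm))
    (hn : 4 * R ^ 2 * (lm * Bε) * B6 ≤ k ^ 3) : B6 * NJ ≤ NL := by
  have h2 : 4 * R ^ 2 * (B6 * NJ) ≤ 4 * R ^ 2 * NL := by
    calc 4 * R ^ 2 * (B6 * NJ) ≤ 4 * R ^ 2 * (B6 * (Bε * δ * (lm * sm))) := by
          apply mul_le_mul_of_nonneg_left _ (by positivity)
          exact mul_le_mul_of_nonneg_left hNJ hB6
      _ = (4 * R ^ 2 * (lm * Bε) * B6) * (δ * sm) := by ring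
      _ ≤ k ^ 3 * (δ * sm) := mul_le_mul_of_nonneg_right hn (by positivity)
      _ = k ^ 3 * δ * sm := by ring
      _ ≤ _ := h1
  exact le_of_mul_le_mul_left h2 (by positivity)

end Claimed.Agent.R322.Sx.Rev
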