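import Claimed.Agent.R322.Sx.Witness

/-!
# R322 / Sx / Reverse / VMom : Gaussian `L^p` moment of the vector multiplier (AE (6.12), (6.13))

Plan (checked by hand, helper104).  `A` = a joint witness at the scale `v` (`ctl_list`, `Cl`), which is a majority list.
* `rough_height` : `NearW A W (Ce v √(δ/k))`, hence `|V(A j)|² ≤ Γ_v(A j) ≤ Γ0(A j) ≤ Cw dist(A j, W)² ≤ Cw Ce² v² δ/k`.
* `|V ζ| ≤ Cv distA A ζ + max_j |V(A j)|` (`WellVec.deriv_le`, mean value inequality).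
* body `ball x (lev δ² v)` : `ctl_moment` (exponent `p`) and `ctl_mass` (`j = 0`);
* tail `|y - x| > (lev δ²/2) v` : `|V|² ≤ Γ_v ≤ 2 v²`, `ctl_mass` tail `≤ C exp(-c lev⁴/4) ≤ δ^{p/2} ≤ (δ/k)^{p/2}`
  because `lev δ ≥ a0 - log K1` is large.
-/

set_option autoImplicit false

namespace Claimed.Agent.R322.Sx

open MeasureTheory Set Metric
open scoped ENNReal NNReal InnerProductSpace

variable {m n Q : ℕ}

/-- the vector multiplier is Lipschitz. -/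
theorem WellVec.lip {W : Finset (E n)} {C cv s : ℝ} {Γ0 : E n → ℝ} {V : E n → E n}
    (h : WellVec W C cv s Γ0 V) (ζ ζ' : E n) : ‖V ζ - V ζ'‖ ≤ C * ‖ζ - ζ'‖ :=
  Convex.norm_image_sub_le_of_norm_fderiv_le (𝕜 := ℝ) (s := univ)
    (fun x _ => (h.smooth.differentiable (by norm_num)).differentiableAt)
    (fun x _ => h.deriv_le x) convex_univ (mem_univ _) (mem_univ _)

/-- `|V ζ| ≤ C dist(ζ, A) + max_j |V(A j)|`. -/
theorem vm_pointwise (hQ : 1 ≤ Q) {W : Finset (E n)} {C cv s Mx : ℝ} {Γ0 : E n → ℝ}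
    {V : E n → E n} (h : WellVec W C cv s Γ0 V) (A : Fin Q → E n) (hA : ∀ j, ‖V (A j)‖ ≤ Mx)
    (ζ : E n) : ‖V ζ‖ ≤ C * Sys.distA A ζ + Mx := by
  have : Nonempty (Fin Q) := ⟨⟨0, hQ⟩⟩
  obtain ⟨y, ⟨j, rfl⟩, hy⟩ := (Set.finite_range A).isCompact.exists_infDist_eq_dist
    (range_nonempty A) ζ
  unfold Sys.distA
  rw [hy, dist_eq_norm]
  calc ‖V ζ‖ = ‖(V ζ - V (A j)) + V (A j)‖ := by rw [sub_add_cancel]
    _ ≤ ‖V ζ - V (A j)‖ + ‖V (A j)‖ := norm_add_le _ _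
    _ ≤ _ := add_le_add (h.lip _ _) (hA j)

/-- the multiplier at an entry near a well. -/
theorem vm_entry {W : Finset (E n)} {Cw cp C C' cv s ε : ℝ} {Γ0 : E n → ℝ} {V : E n → E n}
    (hs : 0 < s) (hwf : WellFn W Cw cp Γ0) (hG : GamOk Γ0 C') (h : WellVec W C cv s Γ0 V)
    (hCw : 0 ≤ Cw) (hε : 0 ≤ ε) {a : E n} (ha : ∃ b ∈ W, ‖a - b‖ ≤ ε) :
    ‖V a‖ ≤ Real.sqrt Cw * ε := by
  obtain ⟨b, hb, hab⟩ := ha
  have h1 : infDist a (W : Set (E n)) ≤ ε :=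
    (infDist_le_dist_of_mem (Finset.mem_coe.2 hb)).trans (by rwa [dist_eq_norm])
  have h2 : ‖V a‖ ^ 2 ≤ Cw * ε ^ 2 :=
    calc ‖V a‖ ^ 2 ≤ gam Γ0 s a := h.sq_le a
      _ ≤ Γ0 a := hG.le s a hs
      _ ≤ Cw * infDist a (W : Set (E n)) ^ 2 := hwf.upper a
      _ ≤ Cw * ε ^ 2 := by
          apply mul_le_mul_of_nonneg_left _ hCw
          exact pow_le_pow_left₀ infDist_nonneg h1 2
  have h3 : Cw * ε ^ 2 = (Real.sqrt Cw * ε) ^ 2 := by
    rw [mul_pow, Real.sq_sqrt hCw]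
  rw [h3] at h2
  exact (pow_le_pow_iff_left₀ (norm_nonneg _) (by positivity) (by norm_num)).1 h2

/-- `(a + b)^p ≤ 2^p (a^p + b^p)`. -/
theorem vm_rpow_add {a b p : ℝ} (ha : 0 ≤ a) (hb : 0 ≤ b) (hp : 0 ≤ p) :
    (a + b) ^ p ≤ 2 ^ p * (a ^ p + b ^ p) := by
  have h2 : (0 : ℝ) ≤ 2 ^ p := by positivity
  have hap : 0 ≤ a ^ p := Real.rpow_nonneg ha p
  have hbp : 0 ≤ b ^ p := Real.rpow_nonneg hb p
  rcases le_total a b with hab | hab
  · calc (a + b) ^ p ≤ (2 * b) ^ p := Real.rpow_le_rpow (by linarith) (by linarith) hp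
      _ = 2 ^ p * b ^ p := Real.mul_rpow (by norm_num) hb
      _ ≤ _ := mul_le_mul_of_nonneg_left (by linarith) h2
  · calc (a + b) ^ p ≤ (2 * a) ^ p := Real.rpow_le_rpow (by linarith) (by linarith) hp
      _ = 2 ^ p * a ^ p := Real.mul_rpow (by norm_num) ha
      _ ≤ _ := mul_le_mul_of_nonneg_left (by linarith) h2

/-- `ker(y) f(y, ζ)` is `μ`-integrable when `f` is measurable and a.e. bounded over the chart. -/
theorem PD.integrable_ker_mul_ae {κ Cg : ℝ} (P : PD m n Q) (h : P.Ok κ Cg) (v : ℝ)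
    {f : E m × E n → ℝ} (hf : Measurable f) (C : ℝ)
    (hb : ∀ᵐ q ∂P.S.μ, q.1 ∈ closedBall (0 : E m) 3 → |f q| ≤ C) :
    Integrable (fun q : E m × E n => Sys.ker P.χ v P.x q.1 * f q) P.S.μ := by
  refine h.root.hyp.valid.integrable_of_baseCpt
    (((P.ker_continuous h v).measurable.comp measurable_fst).mul hf)
    ⟨closedBall (0 : E m) 3, isCompact_closedBall _ _, cmpl_K_subset h.root, fun q hq => ?_⟩
    ((2 * Real.pi * v ^ 2) ^ (-(m : ℝ) / 2) * |C|) ?_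
  · have : Sys.ker P.χ v P.x q.1 = 0 := by
      by_contra hne
      exact hq (P.ker_support h v hne)
    show Sys.ker P.χ v P.x q.1 * f q = 0
    rw [this, zero_mul]
  · filter_upwards [hb] with q hq
    by_cases hq3 : q.1 ∈ closedBall (0 : E m) 3
    · rw [abs_mul, abs_of_nonneg (P.ker_nonneg h v q.1)]
      exact mul_le_mul (P.ker_le h v q.1) ((hq hq3).trans (le_abs_self _)) (abs_nonneg _)
        (by positivity)
    · have : Sys.ker P.χ v P.x q.1 = 0 := by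
        by_contra hne
        exact hq3 (P.ker_support h v hne)
      rw [this, zero_mul, abs_zero]
      positivity

theorem PD.integrable_ker_mul_bdd {κ Cg : ℝ} (P : PD m n Q) (h : P.Ok κ Cg) (v : ℝ)
    {f : E m × E n → ℝ} (hf : Measurable f) (C : ℝ) (hb : ∀ q, |f q| ≤ C) :
    Integrable (fun q : E m × E n => Sys.ker P.χ v P.x q.1 * f q) P.S.μ :=
  P.integrable_ker_mul_ae h v hf C (Filter.Eventually.of_forall fun q _ => hb q)

/-- powers of the distance to a list are integrable against the kernel (properness). -/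
theorem vm_integrable_dist {κ Cg : ℝ} (P : PD m n Q) (h : P.Ok κ Cg) (hQ : 1 ≤ Q) (v p : ℝ)
    (hp : 0 ≤ p) (A : Fin Q → E n) :
    Integrable (fun q : E m × E n => Sys.ker P.χ v P.x q.1 * Sys.distA A q.2 ^ p) P.S.μ := by
  obtain ⟨H, hH⟩ := h.root.hyp.valid.proper (closedBall (0 : E m) 3) (isCompact_closedBall _ _)
    (cmpl_K_subset h.root)
  have hcont : Continuous (Sys.distA A) := continuous_infDist_pt _
  refine P.integrable_ker_mul_ae h v ((hcont.measurable.comp measurable_snd).pow_const p)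
    ((|H| + ‖A ⟨0, hQ⟩‖) ^ p) ?_
  have hae : ∀ᵐ q ∂P.S.μ, q ∉ closedBall (0 : E m) 3 ×ˢ {ζ : E n | H < ‖ζ‖} :=
    measure_eq_zero_iff_ae_notMem.1 hH
  filter_upwards [hae] with q hq hq3
  have h1 : ‖q.2‖ ≤ H := by
    by_contra hcon
    exact hq ⟨hq3, not_le.1 hcon⟩
  have h2 : Sys.distA A q.2 ≤ |H| + ‖A ⟨0, hQ⟩‖ := by
    calc Sys.distA A q.2 ≤ dist q.2 (A ⟨0, hQ⟩) := infDist_le_dist_of_mem (mem_range_self _)
      _ = ‖q.2 - A ⟨0, hQ⟩‖ := dist_eq_norm _ _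
      _ ≤ ‖q.2‖ + ‖A ⟨0, hQ⟩‖ := norm_sub_le _ _
      _ ≤ _ := by linarith [le_abs_self H]
  have h0 : 0 ≤ Sys.distA A q.2 := infDist_nonneg
  rw [abs_of_nonneg (Real.rpow_nonneg h0 p)]
  exact Real.rpow_le_rpow h0 h2 hp

theorem vm_integral_lin3 {α : Type*} [MeasurableSpace α] {μ : Measure α} {f g h : α → ℝ}
    (a b c : ℝ) (hf : Integrable f μ) (hg : Integrable g μ) (hh : Integrable h μ) :
    ∫ x, (a * f x + b * g x + c * h x) ∂μ
      = a * (∫ x, f x ∂μ) + b * (∫ x, g x ∂μ) + c * ∫ x, h x ∂μ := by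
  have h1 : Integrable (fun x => a * f x) μ := hf.const_mul a
  have h2 : Integrable (fun x => b * g x) μ := hg.const_mul b
  have h3 : Integrable (fun x => c * h x) μ := hh.const_mul c
  have h12 : Integrable (fun x => a * f x + b * g x) μ := h1.add h2
  rw [integral_add h12 h3, integral_add h1 h2, integral_const_mul, integral_const_mul,
    integral_const_mul]

/-- the integrated form of the pointwise bounds: body and tail. -/
theorem vm_integral {κ Cg : ℝ} (P : PD m n Q) (h : P.Ok κ Cg) (hQ : 1 ≤ Q) {v p L Cv Mx : ℝ}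
    (hv : 0 < v) (hp : 0 ≤ p) (hL : 0 < L) (hCv : 0 ≤ Cv) (hMx : 0 ≤ Mx)
    (hLsub : ball P.x (L * v) ⊆ ball (0 : E m) 2) (A : Fin Q → E n) (V : E n → E n)
    (hVc : Continuous V) (hV1 : ∀ ζ, ‖V ζ‖ ≤ Cv * Sys.distA A ζ + Mx)
    (hV2 : ∀ ζ, ‖V ζ‖ ≤ Real.sqrt 2 * v) :
    P.S.avg P.χ v P.x (fun q => ‖V q.2‖ ^ p) ≤
      2 ^ p * Cv ^ p * (∫ q in ball P.x (L * v) ×ˢ (univ : Set (E n)),
          gauss m v (q.1 - P.x) * Sys.distA A q.2 ^ p ∂P.S.μ)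
      + 2 ^ p * Mx ^ p * P.S.avg P.χ v P.x (fun q => (1 + ‖uu P.x v q.1‖ ^ 2) ^ 0)
      + (Real.sqrt 2 * v) ^ p * P.S.avg P.χ v P.x
          (fun q => ({q : E m × E n | L / 2 * v < ‖q.1 - P.x‖}.indicator
            (fun q => (1 + ‖uu P.x v q.1‖ ^ 2) ^ 0) q)) := by
  have hBd : MeasurableSet (ball P.x (L * v) ×ˢ (univ : Set (E n))) :=
    measurableSet_ball.prod MeasurableSet.univ
  have hTl : MeasurableSet {q : E m × E n | L / 2 * v < ‖q.1 - P.x‖} :=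
    (isOpen_lt continuous_const ((continuous_fst.sub continuous_const).norm)).measurableSet
  have e1 : (∫ q in ball P.x (L * v) ×ˢ (univ : Set (E n)),
      gauss m v (q.1 - P.x) * Sys.distA A q.2 ^ p ∂P.S.μ)
      = ∫ q, (ball P.x (L * v) ×ˢ (univ : Set (E n))).indicator
          (fun q => Sys.ker P.χ v P.x q.1 * Sys.distA A q.2 ^ p) q ∂P.S.μ := by
    rw [integral_indicator hBd]
    apply setIntegral_congr_fun hBd
    intro q hq
    simp only [Sys.ker]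
    rw [h.root.cut.eq_one q.1 (hLsub hq.1), one_mul]
  rw [e1]
  unfold Sys.avg
  simp only [pow_zero]
  have i0 : Integrable (fun q : E m × E n => Sys.ker P.χ v P.x q.1 * ‖V q.2‖ ^ p) P.S.μ := by
    refine P.integrable_ker_mul_bdd h v
      (((hVc.comp continuous_snd).norm).measurable.pow_const p) ((Real.sqrt 2 * v) ^ p) fun q => ?_
    rw [abs_of_nonneg (Real.rpow_nonneg (norm_nonneg _) p)]
    exact Real.rpow_le_rpow (norm_nonneg _) (hV2 _) hp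
  have i1 := (vm_integrable_dist P h hQ v p hp A).indicator hBd
  have i2 : Integrable (fun q : E m × E n => Sys.ker P.χ v P.x q.1 * 1) P.S.μ :=
    P.integrable_ker_mul_bdd h v measurable_const 1 (fun _ => by simp)
  have i3 : Integrable (fun q : E m × E n => Sys.ker P.χ v P.x q.1 *
      ({q : E m × E n | L / 2 * v < ‖q.1 - P.x‖}.indicator (fun _ => (1 : ℝ)) q)) P.S.μ := by
    refine P.integrable_ker_mul_bdd h v (measurable_const.indicator hTl) 1 fun q => ?_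
    by_cases hq : q ∈ {q : E m × E n | L / 2 * v < ‖q.1 - P.x‖}
    · rw [indicator_of_mem hq]; simp
    · rw [indicator_of_notMem hq]; simp
  have hsum : (∫ q, (2 ^ p * Cv ^ p * (ball P.x (L * v) ×ˢ (univ : Set (E n))).indicator
          (fun q => Sys.ker P.χ v P.x q.1 * Sys.distA A q.2 ^ p) q
      + 2 ^ p * Mx ^ p * (Sys.ker P.χ v P.x q.1 * 1)
      + (Real.sqrt 2 * v) ^ p * (Sys.ker P.χ v P.x q.1 *
        ({q : E m × E n | L / 2 * v < ‖q.1 - P.x‖}.indicator (fun _ => (1 : ℝ)) q))) ∂P.S.μ)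
      = 2 ^ p * Cv ^ p * (∫ q, (ball P.x (L * v) ×ˢ (univ : Set (E n))).indicator
          (fun q => Sys.ker P.χ v P.x q.1 * Sys.distA A q.2 ^ p) q ∂P.S.μ)
      + 2 ^ p * Mx ^ p * (∫ q, Sys.ker P.χ v P.x q.1 * 1 ∂P.S.μ)
      + (Real.sqrt 2 * v) ^ p * (∫ q, Sys.ker P.χ v P.x q.1 *
        ({q : E m × E n | L / 2 * v < ‖q.1 - P.x‖}.indicator (fun _ => (1 : ℝ)) q) ∂P.S.μ) := by
    exact vm_integral_lin3 _ _ _ i1 i2 i3
  rw [← hsum]
  apply integral_mono i0 (((i1.const_mul _).add (i2.const_mul _)).add (i3.const_mul _))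
  intro q
  have hk := P.ker_nonneg h v q.1
  have hd0 : 0 ≤ Sys.distA A q.2 := infDist_nonneg
  have h2p : (0 : ℝ) ≤ 2 ^ p := by positivity
  have hMp : 0 ≤ Mx ^ p := Real.rpow_nonneg hMx p
  have hsp : 0 ≤ (Real.sqrt 2 * v) ^ p := Real.rpow_nonneg (by positivity) p
  show Sys.ker P.χ v P.x q.1 * ‖V q.2‖ ^ p ≤
    2 ^ p * Cv ^ p * (ball P.x (L * v) ×ˢ (univ : Set (E n))).indicator
          (fun q => Sys.ker P.χ v P.x q.1 * Sys.distA A q.2 ^ p) q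
      + 2 ^ p * Mx ^ p * (Sys.ker P.χ v P.x q.1 * 1)
      + (Real.sqrt 2 * v) ^ p * (Sys.ker P.χ v P.x q.1 *
        ({q : E m × E n | L / 2 * v < ‖q.1 - P.x‖}.indicator (fun _ => (1 : ℝ)) q))
  by_cases hq : q ∈ ball P.x (L * v) ×ˢ (univ : Set (E n))
  · rw [indicator_of_mem hq]
    have a1 : ‖V q.2‖ ^ p ≤ 2 ^ p * (Cv ^ p * Sys.distA A q.2 ^ p + Mx ^ p) := by
      calc ‖V q.2‖ ^ p ≤ (Cv * Sys.distA A q.2 + Mx) ^ p :=
            Real.rpow_le_rpow (norm_nonneg _) (hV1 _) hp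
        _ ≤ 2 ^ p * ((Cv * Sys.distA A q.2) ^ p + Mx ^ p) :=
            vm_rpow_add (by positivity) hMx hp
        _ = _ := by rw [Real.mul_rpow hCv hd0]
    have a2 : 0 ≤ (Real.sqrt 2 * v) ^ p * (Sys.ker P.χ v P.x q.1 *
        ({q : E m × E n | L / 2 * v < ‖q.1 - P.x‖}.indicator (fun _ => (1 : ℝ)) q)) := by
      apply mul_nonneg hsp (mul_nonneg hk _)
      exact indicator_nonneg (fun _ _ => zero_le_one) _
    have a3 := mul_le_mul_of_nonneg_left a1 hk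
    have a4 : Sys.ker P.χ v P.x q.1 * (2 ^ p * (Cv ^ p * Sys.distA A q.2 ^ p + Mx ^ p))
        = 2 ^ p * Cv ^ p * (Sys.ker P.χ v P.x q.1 * Sys.distA A q.2 ^ p)
          + 2 ^ p * Mx ^ p * (Sys.ker P.χ v P.x q.1 * 1) := by ring
    linarith
  · rw [indicator_of_notMem hq]
    have hq' : q ∈ {q : E m × E n | L / 2 * v < ‖q.1 - P.x‖} := by
      have b1 : ¬ (q.1 ∈ ball P.x (L * v)) := fun hc => hq ⟨hc, mem_univ _⟩
      rw [mem_ball, dist_eq_norm, not_lt] at b1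
      show L / 2 * v < ‖q.1 - P.x‖
      have : 0 < L * v := by positivity
      have e : L / 2 * v = L * v / 2 := by ring
      linarith
    rw [indicator_of_mem hq']
    have a1 : ‖V q.2‖ ^ p ≤ (Real.sqrt 2 * v) ^ p := Real.rpow_le_rpow (norm_nonneg _) (hV2 _) hp
    have a3 := mul_le_mul_of_nonneg_left a1 hk
    have a5 : 0 ≤ 2 ^ p * Mx ^ p * (Sys.ker P.χ v P.x q.1 * 1) := by positivity
    have a6 : Sys.ker P.χ v P.x q.1 * (Real.sqrt 2 * v) ^ p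
        = (Real.sqrt 2 * v) ^ p * (Sys.ker P.χ v P.x q.1 * 1) := by ring
    linarith

/-- collecting the three contributions. -/
theorem vm_final {p Cv c1 b Cm X v r Mx I1 I2 I3 S : ℝ} (hp : 0 < p) (hCv : 0 ≤ Cv)
    (hc1 : 0 ≤ c1) (hb : 0 ≤ b) (hCm : 0 ≤ Cm) (hv : 0 ≤ v) (hr : 0 ≤ r)
    (hS : S ≤ 2 ^ p * Cv ^ p * I1 + 2 ^ p * Mx ^ p * I2 + (Real.sqrt 2 * v) ^ p * I3)
    (h1 : I1 ≤ (c1 * X) ^ p) (h2 : I2 ≤ Cm) (h3 : I3 ≤ Cm * r ^ p) (hMx : Mx = b * X)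
    (hX : X = v * r) :
    S ≤ (((2 * Cv * c1) ^ p + (2 * b) ^ p * Cm + Real.sqrt 2 ^ p * Cm) ^ (1 / p) * X) ^ p := by
  have hX0 : 0 ≤ X := by rw [hX]; positivity
  have hs2 : 0 ≤ Real.sqrt 2 := Real.sqrt_nonneg _
  have hBk : 0 ≤ (2 * Cv * c1) ^ p + (2 * b) ^ p * Cm + Real.sqrt 2 ^ p * Cm := by positivity
  rw [Real.mul_rpow (Real.rpow_nonneg hBk _) hX0, one_div, Real.rpow_inv_rpow hBk hp.ne']
  have e1 : 2 ^ p * Cv ^ p * I1 ≤ (2 * Cv * c1) ^ p * X ^ p := by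
    calc 2 ^ p * Cv ^ p * I1 ≤ 2 ^ p * Cv ^ p * (c1 * X) ^ p :=
          mul_le_mul_of_nonneg_left h1 (by positivity)
      _ = _ := by
          rw [Real.mul_rpow hc1 hX0, Real.mul_rpow (by positivity) hc1,
            Real.mul_rpow (by norm_num) hCv]
          ring
  have e2 : 2 ^ p * Mx ^ p * I2 ≤ (2 * b) ^ p * Cm * X ^ p := by
    have hMx0 : 0 ≤ Mx := by rw [hMx]; positivity
    calc 2 ^ p * Mx ^ p * I2 ≤ 2 ^ p * Mx ^ p * Cm :=
          mul_le_mul_of_nonneg_left h2 (by positivity)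
      _ = _ := by
          rw [hMx, Real.mul_rpow hb hX0, Real.mul_rpow (by norm_num) hb]
          ring
  have e3 : (Real.sqrt 2 * v) ^ p * I3 ≤ Real.sqrt 2 ^ p * Cm * X ^ p := by
    calc (Real.sqrt 2 * v) ^ p * I3 ≤ (Real.sqrt 2 * v) ^ p * (Cm * r ^ p) :=
          mul_le_mul_of_nonneg_left h3 (by positivity)
      _ = _ := by
          rw [hX, Real.mul_rpow hs2 hv, Real.mul_rpow hv hr]
          ring
  calc S ≤ _ := hS
    _ ≤ (2 * Cv * c1) ^ p * X ^ p + (2 * b) ^ p * Cm * X ^ p + Real.sqrt 2 ^ p * Cm * X ^ p := by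
        linarith
    _ = _ := by ring

/-- the Gaussian mass tail beyond `lev² / 2` is below `(δ/k)^{p/2}`. -/
theorem vm_tailnum {cm p lv δ k : ℝ} (hcm : 0 < cm) (hp : 0 < p) (hlv1 : 1 ≤ lv)
    (hlv : 2 * p / cm ≤ lv) (hδ : Real.exp (-lv) = δ) (hk0 : 0 < k) (hk1 : k ≤ 1) :
    Real.exp (-cm * (lv ^ 2 / 2) ^ 2) ≤ Real.sqrt (δ / k) ^ p := by
  have hδ0 : 0 < δ := hδ ▸ Real.exp_pos _
  have h1 : δ ≤ δ / k := by
    rw [le_div_iff₀ hk0]
    nlinarith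
  have h2 : Real.sqrt δ ^ p ≤ Real.sqrt (δ / k) ^ p :=
    Real.rpow_le_rpow (Real.sqrt_nonneg _) (Real.sqrt_le_sqrt h1) hp.le
  refine le_trans ?_ h2
  have h3 : Real.sqrt δ = Real.exp (-lv / 2) := by
    rw [← hδ, Real.sqrt_eq_rpow, ← Real.exp_mul]
    congr 1
    ring
  rw [h3, ← Real.exp_mul]
  apply Real.exp_le_exp.2
  rw [div_le_iff₀ hcm] at hlv
  have h4 : lv ≤ lv ^ 3 := by
    have : 1 ≤ lv ^ 2 := by nlinarith
    nlinarith
  have h5 : 2 * p * lv ≤ cm * lv ^ 4 := by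
    have a1 : 2 * p ≤ cm * lv ^ 3 := by nlinarith
    have a2 : 2 * p * lv ≤ cm * lv ^ 3 * lv := mul_le_mul_of_nonneg_right a1 (by linarith)
    have a3 : cm * lv ^ 3 * lv = cm * lv ^ 4 := by ring
    linarith
  have h6 : -cm * (lv ^ 2 / 2) ^ 2 = -(cm * lv ^ 4) / 4 := by ring
  rw [h6]
  linarith

/-- AE (6.12)-(6.13): Gaussian `L^p` moment of the vector multiplier. -/
theorem V_moment (m n Q : ℕ) (hm : 1 ≤ m) (hQ : 1 ≤ Q) (κ Cg : ℝ) (F : Fix m n Q Cg)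
    (K1 J Cw cp Cv p : ℝ) (hK1 : 1 ≤ K1) (hJ : 0 ≤ J) (hCw : 1 ≤ Cw) (hCv : 1 ≤ Cv)
    (hp : AdmP m p) :
    ∃ C T0 : ℝ, 0 < C ∧ ∀ P : PD m n Q, P.Ok κ Cg → T0 ≤ P.T → ∀ v δ, P.Ctl K1 J v δ →
      ∀ (W : Finset (E n)) (Γ0 : E n → ℝ) (V : E n → E n) (cv : ℝ), W.Nonempty →
      WellFn W Cw cp Γ0 → WellVec W Cv cv v Γ0 V →
      ∀ k : ℝ, 1 / P.T ≤ k → k ≤ 1 → P.U Γ0 v ≤ v ^ 2 * δ / k →
      P.S.avg P.χ v P.x (fun q => ‖V q.2‖ ^ p) ≤ (C * v * Real.sqrt (δ / k)) ^ p := by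
  have hp0 : 0 < p := by linarith [hp.1]
  obtain ⟨Cl, Tl, hCl, hlist⟩ := ctl_list m n Q hm hQ κ Cg F K1 J hK1 hJ
  obtain ⟨Ce, γ', Tr, hCe, -, hrough⟩ :=
    rough_height m n Q hm hQ κ Cg F K1 J Cl Cw cp hK1 hJ hCl hCw
  obtain ⟨Cp', Tm, hmom⟩ := ctl_moment m n Q hm hQ κ Cg F K1 J Cl hK1 hJ hCl
  obtain ⟨Cm, cm, Tms, hCm, hcm, hmass⟩ := ctl_mass m n Q hm hQ κ Cg K1 J hK1 hJ 0
  obtain ⟨C', -, hgam⟩ := gamOk n Cw cp hCw
  obtain ⟨Ts, hsmall⟩ := ctl_small m n Q hQ K1 1 0 1 (2 * p / cm) hK1 one_pos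
  have hs2 : 0 < Real.sqrt 2 := Real.sqrt_pos.2 (by norm_num)
  have hBk : 0 < (2 * Cv * |Cp' p|) ^ p + (2 * (Real.sqrt Cw * Ce)) ^ p * Cm
      + Real.sqrt 2 ^ p * Cm := by
    have a1 : 0 ≤ (2 * Cv * |Cp' p|) ^ p := Real.rpow_nonneg (by positivity) _
    have a2 : 0 ≤ (2 * (Real.sqrt Cw * Ce)) ^ p * Cm :=
      mul_nonneg (Real.rpow_nonneg (by positivity) _) hCm.le
    have a3 : 0 < Real.sqrt 2 ^ p * Cm := mul_pos (Real.rpow_pos_of_pos hs2 _) hCm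
    linarith
  refine ⟨_, max (max Tl Tr) (max (max Tm Tms) Ts), Real.rpow_pos_of_pos hBk (1 / p), ?_⟩
  intro P hP hT v δ hctl W Γ0 V cv hW hwf hVV k hkT hk1 hU
  have hTl : Tl ≤ P.T := ((le_max_left _ _).trans (le_max_left _ _)).trans hT
  have hTr : Tr ≤ P.T := ((le_max_right _ _).trans (le_max_left _ _)).trans hT
  have hTm : Tm ≤ P.T :=
    (((le_max_left _ _).trans (le_max_left _ _)).trans (le_max_right _ _)).trans hT
  have hTms : Tms ≤ P.T :=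
    (((le_max_right _ _).trans (le_max_left _ _)).trans (le_max_right _ _)).trans hT
  have hTs : Ts ≤ P.T := ((le_max_right _ _).trans (le_max_right _ _)).trans hT
  obtain ⟨hT2, -, hρ1, hlv2, hlvN, -⟩ := hsmall P hTs J v δ hctl
  have hv : 0 < v := hctl.v_pos
  have hδ0 : 0 < δ := hctl.δ_pos
  have hk0 : 0 < k := lt_of_lt_of_le (by positivity) hkT
  obtain ⟨A, hA⟩ := hlist P hP hTl v δ hctl
  have hmaj : F.IsMaj P.S P.x v (Cl * δ) A := hA.maj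
  have hnear := (hrough P hP hTr v δ hctl W Γ0 hW hwf k hkT hk1 hU).1 A hmaj
  have hG := hgam W Γ0 hwf
  obtain ⟨r, hr⟩ : ∃ r : ℝ, r = Real.sqrt (δ / k) := ⟨_, rfl⟩
  have hr0 : 0 ≤ r := hr ▸ Real.sqrt_nonneg _
  rw [← hr] at hnear ⊢
  have hV1 := vm_pointwise hQ hVV A (fun j =>
    vm_entry hv hwf hG hVV (by linarith) (by positivity : 0 ≤ Ce * v * r) (hnear j))
  have hV2 : ∀ ζ, ‖V ζ‖ ≤ Real.sqrt 2 * v := by
    intro ζ
    have a1 : ‖V ζ‖ ^ 2 ≤ (Real.sqrt 2 * v) ^ 2 := by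
      rw [mul_pow, Real.sq_sqrt (by norm_num)]
      exact (hVV.sq_le ζ).trans (hG.le_sq v ζ hv)
    exact (pow_le_pow_iff_left₀ (norm_nonneg _) (by positivity) (by norm_num)).1 a1
  have hL0 : 0 < lev δ ^ 2 := by positivity
  have hLT : lev δ ^ 2 ≤ P.T ^ 4 := by
    have a1 := hctl.lev_le
    have a2 : lev δ ^ 2 ≤ (P.T / 2) ^ 2 := pow_le_pow_left₀ (by linarith) a1 2
    have a3 : (1 : ℝ) ≤ P.T ^ 2 := by nlinarith
    have a4 : P.T ^ 4 = P.T ^ 2 * P.T ^ 2 := by ring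
    nlinarith
  have hLsub : ball P.x (lev δ ^ 2 * v) ⊆ ball (0 : E m) 2 :=
    hP.ball_sub ((hctl.mul_le hLT).trans hρ1)
  have main := vm_integral P hP hQ hv hp0.le hL0 (by linarith : 0 ≤ Cv)
    (by positivity : 0 ≤ Real.sqrt Cw * (Ce * v * r)) hLsub A V hVV.smooth.continuous hV1 hV2
  have b1 := hmom P hP hTm v δ hctl A hmaj p (Or.inr hp)
  obtain ⟨b2, b3'⟩ := hmass P hP hTms v δ hctl
  have b3 := b3' (lev δ ^ 2 / 2) (by nlinarith)
  have hsδ : Real.sqrt δ ≤ r := by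
    rw [hr]
    apply Real.sqrt_le_sqrt
    rw [le_div_iff₀ hk0]
    nlinarith
  have c1 : (Cp' p * v * Real.sqrt δ) ^ p ≤ (|Cp' p| * (v * r)) ^ p := by
    calc (Cp' p * v * Real.sqrt δ) ^ p ≤ |(Cp' p * v * Real.sqrt δ) ^ p| := le_abs_self _
      _ ≤ |Cp' p * v * Real.sqrt δ| ^ p := Real.abs_rpow_le_abs_rpow _ _
      _ = (|Cp' p| * (v * Real.sqrt δ)) ^ p := by
          rw [abs_mul, abs_mul, abs_of_pos hv, abs_of_nonneg (Real.sqrt_nonneg _), mul_assoc]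
      _ ≤ _ := by
          apply Real.rpow_le_rpow (by positivity) _ hp0.le
          apply mul_le_mul_of_nonneg_left _ (abs_nonneg _)
          exact mul_le_mul_of_nonneg_left hsδ hv.le
  have c3 : Cm * Real.exp (-cm * (lev δ ^ 2 / 2) ^ 2) ≤ Cm * r ^ p := by
    apply mul_le_mul_of_nonneg_left _ hCm.le
    rw [hr]
    exact vm_tailnum hcm hp0 (by linarith) hlvN hctl.exp_neg_lev hk0 hk1
  have fin := vm_final (X := v * r) (b := Real.sqrt Cw * Ce) hp0 (by linarith : 0 ≤ Cv)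
    (abs_nonneg (Cp' p)) (by positivity) hCm.le hv.le hr0 main (b1.trans c1) b2 (b3.trans c3)
    (by ring) rfl
  rw [mul_assoc]
  exact fin

end Claimed.Agent.R322.Sx
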